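import Vale.Agent.P369.H946.BsPen

/-!
P369L (helper946): the cut isometry of the beam splitter, its marginals and their limits.
-/

namespace Vale.Agent.P369L

open Matrix MeasureTheory Set Filter
open Vale.Agent.P369 (Conf up down)
open Vale.Agent.P369A
open scoped Kronecker ComplexOrder Topology

noncomputable section

variable {n : ℕ}

/-- the isometry of the beam splitter, cut to at most `Γ` photons in each output and at most `Y`
photons at the input -/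
def Jb (x : ℝ) (Γ Y : ℕ) : Matrix (Ct n Γ × Ct n Γ) (Ct n Y) ℂ := fun pq m =>
  if m.1 = pq.1.1 + pq.2.1 then ((bsc x pq.1.1 pq.2.1 : ℝ) : ℂ) else 0

theorem Jb_gram (x : ℝ) (Γ Y : ℕ) :
    (Jb (n := n) x Γ Y)ᴴ * Jb (n := n) x Γ Y =
      diagonal fun m : Ct n Y => ((∑ pq : Ct n Γ × Ct n Γ, if m.1 = pq.1.1 + pq.2.1 then
        bsc x pq.1.1 pq.2.1 ^ 2 else 0 : ℝ) : ℂ) := by
  ext m m'
  rw [mul_apply, diagonal_apply]
  by_cases h4 : m = m'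
  · subst h4
    rw [if_pos rfl]
    push_cast
    refine Finset.sum_congr rfl fun pq _ => ?_
    rw [conjTranspose_apply, Jb]
    by_cases h : m.1 = pq.1.1 + pq.2.1
    · rw [if_pos h, if_pos h]
      have e : star ((bsc x pq.1.1 pq.2.1 : ℝ) : ℂ) = ((bsc x pq.1.1 pq.2.1 : ℝ) : ℂ) :=
        Complex.conj_ofReal _
      rw [e]
      push_cast
      ring
    · rw [if_neg h, if_neg h, mul_zero]
      push_cast
      rfl
  · rw [if_neg h4]
    refine Finset.sum_eq_zero fun pq _ => ?_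
    rw [conjTranspose_apply, Jb, Jb]
    by_cases h : m.1 = pq.1.1 + pq.2.1
    · rw [if_pos h, if_neg, mul_zero]
      intro h'
      exact h4 (Subtype.ext (h.trans h'.symm))
    · rw [if_neg h, star_zero, zero_mul]

theorem Jb_gram_le {x : ℝ} (h0 : 0 ≤ x) (h1 : x ≤ 1) (Γ : ℕ) (m : Conf n) :
    (∑ pq : Ct n Γ × Ct n Γ, if m = pq.1.1 + pq.2.1 then bsc x pq.1.1 pq.2.1 ^ 2 else 0 : ℝ) ≤ 1 := by
  rw [← Finset.sum_filter, ← sum_bsc_sq h0 h1 m]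
  have e : ∀ pq ∈ Finset.univ.filter (fun pq : Ct n Γ × Ct n Γ => m = pq.1.1 + pq.2.1),
      bsc x pq.1.1 pq.2.1 ^ 2 = (fun l => bsc x (m - l) l ^ 2) pq.2.1 := by
    intro pq h
    rw [Finset.mem_filter] at h
    simp only
    rw [h.2, add_tsub_cancel_right]
  rw [Finset.sum_congr rfl e, ← Finset.sum_image (f := fun l => bsc x (m - l) l ^ 2)
    (g := fun pq : Ct n Γ × Ct n Γ => pq.2.1)]
  · refine Finset.sum_le_sum_of_subset_of_nonneg ?_ fun _ _ _ => sq_nonneg _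
    intro l hl
    rw [Finset.mem_image] at hl
    obtain ⟨pq, h, rfl⟩ := hl
    rw [Finset.mem_filter] at h
    rw [Finset.mem_Iic, h.2]
    exact le_add_self
  · intro a ha b hb hab
    rw [Finset.mem_coe, Finset.mem_filter] at ha hb
    have h2 : a.2.1 = b.2.1 := hab
    have h3 : a.1.1 = b.1.1 := by
      have h4 : a.1.1 + a.2.1 = b.1.1 + b.2.1 := ha.2.symm.trans hb.2
      rw [h2] at h4
      exact add_right_cancel h4
    exact Prod.ext (Subtype.ext h3) (Subtype.ext h2)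

theorem Jb_contraction {x : ℝ} (h0 : 0 ≤ x) (h1 : x ≤ 1) (Γ Y : ℕ) :
    (1 - (Jb (n := n) x Γ Y)ᴴ * Jb (n := n) x Γ Y).PosSemidef := by
  rw [Jb_gram, ← diagonal_one, diagonal_sub]
  refine PosSemidef.diagonal fun m => ?_
  have h2 := Jb_gram_le h0 h1 Γ m.1
  show (0 : ℂ) ≤ 1 - _
  rw [sub_nonneg]
  exact_mod_cast h2

theorem Jb_mul_inc (x : ℝ) (Γ Y : ℕ) :
    Jb (n := n) x Γ (Y + 1) * inc n (Nat.le_succ Y) = Jb x Γ Y := by
  ext pq m
  rw [mul_apply, Finset.sum_eq_single (inj (Nat.le_succ Y) m)]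
  · rw [inc, incl, if_pos rfl, mul_one]
    rfl
  · intro m' _ hm'
    rw [inc, incl, if_neg hm', mul_zero]
  · intro h
    exact absurd (Finset.mem_univ _) h

/-- `J F J†`, cut -/
def JF (x : ℝ) (Γ Y Y' : ℕ) (F : Ker n) : Matrix (Ct n Γ × Ct n Γ) (Ct n Γ × Ct n Γ) ℂ :=
  Jb (n := n) x Γ Y * cutR Y Y' F * (Jb (n := n) x Γ Y')ᴴ

theorem JF_apply (x : ℝ) (Γ Y Y' : ℕ) (F : Ker n) (pq pq' : Ct n Γ × Ct n Γ) :
    JF x Γ Y Y' F pq pq' = if (∑ j, (pq.1.1 + pq.2.1) j ≤ Y) ∧ (∑ j, (pq'.1.1 + pq'.2.1) j ≤ Y') then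
      ((bsc x pq.1.1 pq.2.1 * bsc x pq'.1.1 pq'.2.1 : ℝ) : ℂ) *
        F (pq.1.1 + pq.2.1) (pq'.1.1 + pq'.2.1) else 0 := by
  rw [JF, mul_apply]
  have h1 : ∀ m' : Ct n Y', (Jb (n := n) x Γ Y * cutR Y Y' F) pq m' =
      if ∑ j, (pq.1.1 + pq.2.1) j ≤ Y then
        ((bsc x pq.1.1 pq.2.1 : ℝ) : ℂ) * F (pq.1.1 + pq.2.1) m'.1 else 0 := by
    intro m'
    rw [mul_apply]
    have h2 : ∀ m : Ct n Y, Jb x Γ Y pq m * cutR Y Y' F m m' = if m.1 = pq.1.1 + pq.2.1 then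
        ((bsc x pq.1.1 pq.2.1 : ℝ) : ℂ) * F m.1 m'.1 else 0 := by
      intro m
      rw [Jb]
      split_ifs
      · rfl
      · rw [zero_mul]
    simp only [h2]
    rw [sum_Ct_ite Y (pq.1.1 + pq.2.1)
      (fun m => ((bsc x pq.1.1 pq.2.1 : ℝ) : ℂ) * F m.1 m'.1)]
    by_cases h : ∑ j, (pq.1.1 + pq.2.1) j ≤ Y
    · rw [dif_pos h, if_pos h]
    · rw [dif_neg h, if_neg h]
  simp only [h1]
  have h3 : ∀ m' : Ct n Y', (if ∑ j, (pq.1.1 + pq.2.1) j ≤ Y then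
        ((bsc x pq.1.1 pq.2.1 : ℝ) : ℂ) * F (pq.1.1 + pq.2.1) m'.1 else 0) *
          (Jb (n := n) x Γ Y')ᴴ m' pq' =
      if m'.1 = pq'.1.1 + pq'.2.1 then (if ∑ j, (pq.1.1 + pq.2.1) j ≤ Y then
        ((bsc x pq.1.1 pq.2.1 * bsc x pq'.1.1 pq'.2.1 : ℝ) : ℂ) * F (pq.1.1 + pq.2.1) m'.1
          else 0) else 0 := by
    intro m'
    rw [conjTranspose_apply, Jb]
    by_cases h : m'.1 = pq'.1.1 + pq'.2.1
    · rw [if_pos h, if_pos h]
      have : star ((bsc x pq'.1.1 pq'.2.1 : ℝ) : ℂ) = ((bsc x pq'.1.1 pq'.2.1 : ℝ) : ℂ) :=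
        Complex.conj_ofReal _
      rw [this]
      split_ifs
      · push_cast
        ring
      · rw [zero_mul]
    · rw [if_neg h, if_neg h, star_zero, mul_zero]
  simp only [h3]
  rw [sum_Ct_ite Y' (pq'.1.1 + pq'.2.1) (fun m' => (if ∑ j, (pq.1.1 + pq.2.1) j ≤ Y then
        ((bsc x pq.1.1 pq.2.1 * bsc x pq'.1.1 pq'.2.1 : ℝ) : ℂ) * F (pq.1.1 + pq.2.1) m'.1
          else 0))]
  by_cases h : ∑ j, (pq.1.1 + pq.2.1) j ≤ Y
  · by_cases h' : ∑ j, (pq'.1.1 + pq'.2.1) j ≤ Y'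
    · rw [dif_pos h', if_pos h, if_pos ⟨h, h'⟩]
    · rw [dif_neg h', if_neg fun hh => h' hh.2]
  · rw [if_neg fun hh => h hh.1]
    by_cases h' : ∑ j, (pq'.1.1 + pq'.2.1) j ≤ Y'
    · rw [dif_pos h', if_neg h]
    · rw [dif_neg h']

/-- the terms of the loss channel -/
def lt (x : ℝ) (F : Ker n) (p p' q : Conf n) : ℂ :=
  ((bsc x p q * bsc x p' q : ℝ) : ℂ) * F (p + q) (p' + q)

/-- the loss channel with transmissivity `x` -/
def lossI (x : ℝ) (s : Ker n) : Ker n := fun p p' => ∑' q, lt x s p p' q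

/-- cut first marginal -/
def mF (x : ℝ) (Γ Y Y' : ℕ) (F : Ker n) : Ker n := fun p p' =>
  ∑ q : Ct n Γ, if (∑ j, (p + q.1) j ≤ Y) ∧ (∑ j, (p' + q.1) j ≤ Y') then lt x F p p' q.1 else 0

theorem mar₁_JF (x : ℝ) (Γ Y Y' : ℕ) (F : Ker n) (p p' : Ct n Γ) :
    mar₁ (JF x Γ Y Y' F) p p' = mF x Γ Y Y' F p.1 p'.1 := by
  unfold mar₁ mF
  refine Finset.sum_congr rfl fun q _ => ?_
  rw [JF_apply]
  rfl

theorem mar₂_JF {x y : ℝ} (hxy : x + y = 1) (Γ Y Y' : ℕ) (F : Ker n) (q q' : Ct n Γ) :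
    mar₂ (JF x Γ Y Y' F) q q' = mF y Γ Y Y' F q.1 q'.1 := by
  unfold mar₂ mF
  refine Finset.sum_congr rfl fun p _ => ?_
  rw [JF_apply, lt, bsc_sq_symm hxy, bsc_sq_symm hxy, add_comm q.1 p.1, add_comm q'.1 p.1]

theorem tendsto_mF {x : ℝ} {F : Ker n} {p p' : Conf n} (hs : Summable (lt x F p p'))
    {G A B : ℕ → ℕ} (hG : ∀ Y, Y ≤ G Y) (hA : ∀ Y, Y ≤ A Y) (hB : ∀ Y, Y ≤ B Y) :
    Tendsto (fun Y => mF x (G Y) (A Y) (B Y) F p p') atTop (𝓝 (lossI x F p p')) := by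
  have h1 : ∀ Y, mF x (G Y) (A Y) (B Y) F p p' =
      ∑ q ∈ (ctF n (G Y)).filter (fun q => (∑ j, (p + q) j ≤ A Y) ∧ (∑ j, (p' + q) j ≤ B Y)),
        lt x F p p' q := by
    intro Y
    rw [Finset.sum_filter, sum_ctF (G Y) fun q => if (∑ j, (p + q) j ≤ A Y) ∧
      (∑ j, (p' + q) j ≤ B Y) then lt x F p p' q else 0]
    rfl
  simp only [h1]
  have hS : Tendsto (fun Y => (ctF n (G Y)).filter
      (fun q => (∑ j, (p + q) j ≤ A Y) ∧ (∑ j, (p' + q) j ≤ B Y))) atTop atTop := by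
    rw [tendsto_atTop]
    intro b
    filter_upwards [eventually_ge_atTop (b.sup fun q => ∑ j, (p + q) j + ∑ j, (p' + q) j)] with Y hY
    intro q hq
    have h2 : ∑ j, (p + q) j + ∑ j, (p' + q) j ≤ Y :=
      (Finset.le_sup (f := fun q => ∑ j, (p + q) j + ∑ j, (p' + q) j) hq).trans hY
    have h3 : ∑ j, q j ≤ ∑ j, (p + q) j := sum_conf_mono le_add_self
    rw [Finset.mem_filter, mem_ctF]
    have h4 := hG Y
    have h5 := hA Y
    have h6 := hB Y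
    exact ⟨by omega, by omega, by omega⟩
  exact hs.hasSum.comp hS

end

end Vale.Agent.P369L
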