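import Vale.Agent.P369.H946.E3b

/-!
P369L (helper946): data processing and superadditivity at fixed cutoffs of the outputs.
-/

namespace Vale.Agent.P369L

open Matrix MeasureTheory Set Filter
open Vale.Agent.P369 (Conf up down)
open Vale.Agent.P369A
open Vale.Agent.P369F
open scoped Kronecker ComplexOrder Topology

noncomputable section

variable {n : ℕ}

theorem lt_zr_smul {x : ℝ} (hx : 0 < x) (hx1 : x ≤ 1) {s : Ker n}
    (hs : ∀ a b, Summable (lt x s a b)) (r : ℝ) (j : Fin n) (p p' : Conf n) :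
    lossI x (zr r s j) p p' = ((Real.sqrt x : ℝ) : ℂ)⁻¹ * zr (x * r) (lossI x s) j p p' :=
  (hasSum_lt_zr hx hx1 hs r j p p').tsum_eq

/-- limit of the linear functional -/
theorem tendsto_lin {x : ℝ} (hx : 0 < x) (hx1 : x ≤ 1) {s : Ker n}
    (hs : ∀ a b, Summable (lt x s a b)) (r : ℝ) (j : Fin n) {X : ℕ}
    (V : Matrix (Ct n X) (Ct n (X + 1)) ℂ) {G A B : ℕ → ℕ} (hG : ∀ Y, Y ≤ G Y)
    (hA : ∀ Y, Y ≤ A Y) (hB : ∀ Y, Y ≤ B Y) :
    Tendsto (fun Y => Real.sqrt x *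
      (cutR X (X + 1) (mF x (G Y) (A Y) (B Y) (zr r s j)) * Vᴴ).trace.re) atTop
      (𝓝 (((Zr (x * r) (lossI x s) X j)ᴴ * V).trace.re)) := by
  have h1 := (tendsto_trace_cutR (K := fun Y => mF x (G Y) (A Y) (B Y) (zr r s j))
    (K₀ := lossI x (zr r s j)) (fun a b => tendsto_mF (hasSum_lt_zr hx hx1 hs r j a b).summable
      hG hA hB) Vᴴ).const_mul (Real.sqrt x)
  refine h1.trans (le_of_eq ?_)
  congr 1
  have e : cutR X (X + 1) (lossI x (zr r s j)) =
      ((Real.sqrt x : ℝ) : ℂ)⁻¹ • Zr (x * r) (lossI x s) X j := by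
    ext a b
    rw [Matrix.smul_apply, Zr_eq]
    exact lt_zr_smul hx hx1 hs r j a.1 b.1
  rw [e, Matrix.smul_mul, trace_smul, smul_eq_mul, ← Complex.ofReal_inv, Complex.re_ofReal_mul,
    ← mul_assoc, mul_inv_cancel₀ (Real.sqrt_pos.2 hx).ne', one_mul, re_trace_swap]

/-- superadditivity of the quadratic forms under the beam splitter -/
theorem e3_step {x y : ℝ} (hx : 0 < x) (hy : 0 < y) (hxy : x + y = 1) {s : Ker n}
    (hs : ∀ X, (cut X s).PosDef) (hsx : ∀ a b, Summable (lt x s a b))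
    (hsy : ∀ a b, Summable (lt y s a b)) (hC : ∀ X, (cut X (lossI x s)).PosDef)
    (hD : ∀ X, (cut X (lossI y s)).PosDef) {l : ℝ} (hl : l ∈ Icc (0 : ℝ) 1) (r : ℝ) (X X' : ℕ)
    (j : Fin n) {ε : ℝ} (hε : 0 < ε) :
    ∀ᶠ Y in atTop, IXj (x * l) (x * r) (lossI x s) X j + IXj (y * l) (y * r) (lossI y s) X' j ≤
      IXj l r s Y j + ε := by
  have hx1 : x ≤ 1 := by linarith only [hxy, hy]
  have hy1 : y ≤ 1 := by linarith only [hxy, hx]
  have hxl : x * l ∈ Icc (0 : ℝ) 1 := ⟨mul_nonneg hx.le hl.1, mul_le_one₀ hx1 hl.1 hl.2⟩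
  have hyl : y * l ∈ Icc (0 : ℝ) 1 := ⟨mul_nonneg hy.le hl.1, mul_le_one₀ hy1 hl.1 hl.2⟩
  have hxx : Real.sqrt x * Real.sqrt x = x := Real.mul_self_sqrt hx.le
  have hyy : Real.sqrt y * Real.sqrt y = y := Real.mul_self_sqrt hy.le
  set C := lossI x s with hCd
  set D := lossI y s with hDd
  set V := Kinv (x * l) (cut X C) (cut (X + 1) C) (Zr (x * r) C X j) with hV
  set W := Kinv (y * l) (cut X' D) (cut (X' + 1) D) (Zr (y * r) D X' j) with hW
  have attV := Qf_attained hxl (hC X) (hC (X + 1)) (Zr (x * r) C X j)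
  have attW := Qf_attained hyl (hD X') (hD (X' + 1)) (Zr (y * r) D X' j)
  rw [← hV] at attV
  rw [← hW] at attW
  -- the lower bounds
  set f : ℕ → ℝ := fun Y =>
    2 * (Real.sqrt x * (cutR X (X + 1) (mF x (Y + 1) Y (Y + 1) (zr r s j)) * Vᴴ).trace.re +
      Real.sqrt y * (cutR X' (X' + 1) (mF y (Y + 1) Y (Y + 1) (zr r s j)) * Wᴴ).trace.re) -
    ((1 - x * l) * (cutR (X + 1) (X + 1) (mF x (Y + 1) (Y + 1) (Y + 1) s) * (Vᴴ * V)).trace.re +
      x * l * (cutR X X (mF x (Y + 1) Y Y s) * (V * Vᴴ)).trace.re +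
      ((1 - y * l) * (cutR (X' + 1) (X' + 1) (mF y (Y + 1) (Y + 1) (Y + 1) s) *
          (Wᴴ * W)).trace.re +
        y * l * (cutR X' X' (mF y (Y + 1) Y Y s) * (W * Wᴴ)).trace.re)) with hf
  have hlim : Tendsto f atTop (𝓝 (IXj (x * l) (x * r) C X j + IXj (y * l) (y * r) D X' j)) := by
    have t1 := tendsto_lin hx hx1 hsx r j V (G := fun Y => Y + 1) (A := fun Y => Y)
      (B := fun Y => Y + 1) (fun Y => Nat.le_succ Y) (fun Y => le_rfl) (fun Y => Nat.le_succ Y)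
    have t2 := tendsto_lin hy hy1 hsy r j W (G := fun Y => Y + 1) (A := fun Y => Y)
      (B := fun Y => Y + 1) (fun Y => Nat.le_succ Y) (fun Y => le_rfl) (fun Y => Nat.le_succ Y)
    have t3 := tendsto_trace_cutR (K := fun Y => mF x (Y + 1) (Y + 1) (Y + 1) s) (K₀ := C)
      (fun a b => tendsto_mF (hsx a b) (fun Y => Nat.le_succ Y) (fun Y => Nat.le_succ Y)
        (fun Y => Nat.le_succ Y)) (Vᴴ * V)
    have t4 := tendsto_trace_cutR (K := fun Y => mF x (Y + 1) Y Y s) (K₀ := C)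
      (fun a b => tendsto_mF (hsx a b) (fun Y => Nat.le_succ Y) (fun Y => le_rfl)
        (fun Y => le_rfl)) (V * Vᴴ)
    have t5 := tendsto_trace_cutR (K := fun Y => mF y (Y + 1) (Y + 1) (Y + 1) s) (K₀ := D)
      (fun a b => tendsto_mF (hsy a b) (fun Y => Nat.le_succ Y) (fun Y => Nat.le_succ Y)
        (fun Y => Nat.le_succ Y)) (Wᴴ * W)
    have t6 := tendsto_trace_cutR (K := fun Y => mF y (Y + 1) Y Y s) (K₀ := D)
      (fun a b => tendsto_mF (hsy a b) (fun Y => Nat.le_succ Y) (fun Y => le_rfl)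
        (fun Y => le_rfl)) (W * Wᴴ)
    have t := ((t1.add t2).const_mul 2).sub (((t3.const_mul (1 - x * l)).add
      (t4.const_mul (x * l))).add ((t5.const_mul (1 - y * l)).add (t6.const_mul (y * l))))
    refine t.trans (le_of_eq ?_)
    congr 1
    unfold IXj
    rw [← attV, ← attW]
    unfold pen
    have e1 : ∀ (Z : ℕ) (K : Ker n), cutR Z Z K = cut Z K := fun _ _ => rfl
    rw [e1, e1, e1, e1]
    ring
  have hle : ∀ Y, X + X' + 2 ≤ Y → f Y ≤ IXj l r s Y j := by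
    intro Y hY
    have hXΓ : X ≤ Y + 1 := by omega
    have hXΓ1 : X + 1 ≤ Y + 1 := by omega
    have hXΓ' : X' ≤ Y + 1 := by omega
    have hXΓ1' : X' + 1 ≤ Y + 1 := by omega
    set V' := extR (Y + 1) V with hV'
    set W' := extR (Y + 1) W with hW'
    set J := Jb (n := n) x (Y + 1) (Y + 1) with hJ
    set E := inc n (Nat.le_succ Y) with hE
    have hcut : Eᴴ * cut (Y + 1) s * E = cut Y s := incl_cut s _
    have hJE : J * E = Jb x (Y + 1) Y := Jb_mul_inc x (Y + 1) Y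
    have hT' : JF x (Y + 1) Y Y s = (J * E) * (Eᴴ * cut (Y + 1) s * E) * (J * E)ᴴ := by
      rw [hcut, hJE]
      rfl
    have hpen := bs_pen (J := J) (Jb_contraction hx.le hx1 _ _) (E := E)
      (inc_isometry (Nat.le_succ Y)) (hs (Y + 1)).posSemidef V' W' (a := Real.sqrt x)
      (b := Real.sqrt y) (by rw [hxx, hyy, hxy]) hl (T := JF x (Y + 1) (Y + 1) (Y + 1) s)
      (T' := JF x (Y + 1) Y Y s) rfl hT'
      (by rw [hV', hW', trace_cross_JF x hY (hY.trans (Nat.le_succ Y)) s V W])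
    rw [hcut, hJE, hxx, hyy] at hpen
    rw [tr_ext_col hXΓ hXΓ1 (mF x (Y + 1) (Y + 1) (Y + 1) s) (mar₁_JF x _ _ _ s) V,
      tr_ext_row hXΓ hXΓ1 (mF x (Y + 1) Y Y s) (mar₁_JF x _ _ _ s) V,
      tr_ext_col hXΓ' hXΓ1' (mF y (Y + 1) (Y + 1) (Y + 1) s) (mar₂_JF hxy _ _ _ s) W,
      tr_ext_row hXΓ' hXΓ1' (mF y (Y + 1) Y Y s) (mar₂_JF hxy _ _ _ s) W] at hpen
    have hvar := two_re_sub_pen_le hl (hs Y) (hs (Y + 1)) (Zr r s Y j)
      ((Jb (n := n) x (Y + 1) Y)ᴴ * tstB (Real.sqrt x) (Real.sqrt y) V' W' * J)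
    rw [lin_trace, Zr_eq] at hvar
    have hlin : (Jb (n := n) x (Y + 1) Y * cutR Y (Y + 1) (zr r s j) * Jᴴ *
        (tstB (Real.sqrt x) (Real.sqrt y) V' W')ᴴ).trace.re =
      Real.sqrt x * (cutR X (X + 1) (mF x (Y + 1) Y (Y + 1) (zr r s j)) * Vᴴ).trace.re +
      Real.sqrt y * (cutR X' (X' + 1) (mF y (Y + 1) Y (Y + 1) (zr r s j)) * Wᴴ).trace.re := by
      have e0 : Jb (n := n) x (Y + 1) Y * cutR Y (Y + 1) (zr r s j) * Jᴴ = JF x (Y + 1) Y (Y + 1) (zr r s j) :=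
        rfl
      have ca : star ((Real.sqrt x : ℝ) : ℂ) = ((Real.sqrt x : ℝ) : ℂ) := Complex.conj_ofReal _
      have cb : star ((Real.sqrt y : ℝ) : ℂ) = ((Real.sqrt y : ℝ) : ℂ) := Complex.conj_ofReal _
      rw [e0, tstB, conjTranspose_add, conjTranspose_smul, conjTranspose_smul,
        conjTranspose_kronecker, conjTranspose_kronecker, conjTranspose_one, ca, cb, Matrix.mul_add,
        Matrix.mul_smul, Matrix.mul_smul, trace_add, trace_smul, trace_smul, Complex.add_re,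
        smul_eq_mul, smul_eq_mul, Complex.re_ofReal_mul, Complex.re_ofReal_mul, ← trace_mar₁,
        ← trace_mar₂, hV', hW',
        tr_ext_lin hXΓ hXΓ1 (mF x (Y + 1) Y (Y + 1) (zr r s j)) (mar₁_JF x _ _ _ _) V,
        tr_ext_lin hXΓ' hXΓ1' (mF y (Y + 1) Y (Y + 1) (zr r s j)) (mar₂_JF hxy _ _ _ _) W]
    rw [hlin, ← Zr_eq] at hvar
    change _ ≤ Qf l (cut Y s) (cut (Y + 1) s) (Zr r s Y j)
    refine le_trans ?_ hvar
    rw [hf]
    simp only
    linarith only [hpen]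
  filter_upwards [hlim.eventually (lt_mem_nhds (a := IXj (x * l) (x * r) C X j +
    IXj (y * l) (y * r) D X' j - ε) (by linarith only [hε])), eventually_ge_atTop (X + X' + 2)]
    with Y h1 h2
  have h3 := hle Y h2
  linarith only [h1, h3]

/-- data processing of the quadratic forms under the loss channel -/
theorem dp_step {x : ℝ} (hx : 0 < x) (hx1 : x ≤ 1) {s : Ker n}
    (hs : ∀ X, (cut X s).PosDef) (hsx : ∀ a b, Summable (lt x s a b))
    (hC : ∀ X, (cut X (lossI x s)).PosDef) {l : ℝ} (hl : l ∈ Icc (0 : ℝ) 1) (r : ℝ) (X : ℕ)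
    (j : Fin n) {ε : ℝ} (hε : 0 < ε) :
    ∀ᶠ Y in atTop, IXj l (x * r) (lossI x s) X j ≤ x * IXj l r s Y j + ε := by
  have hxs : Real.sqrt x ≠ 0 := (Real.sqrt_pos.2 hx).ne'
  have hxx : Real.sqrt x * Real.sqrt x = x := Real.mul_self_sqrt hx.le
  set C := lossI x s with hCd
  set V := Kinv l (cut X C) (cut (X + 1) C) (Zr (x * r) C X j) with hV
  have attV := Qf_attained hl (hC X) (hC (X + 1)) (Zr (x * r) C X j)
  rw [← hV] at attV
  set f : ℕ → ℝ := fun Y =>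
    2 * (Real.sqrt x * (cutR X (X + 1) (mF x (Y + 1) Y (Y + 1) (zr r s j)) * Vᴴ).trace.re) -
    ((1 - l) * (cutR (X + 1) (X + 1) (mF x (Y + 1) (Y + 1) (Y + 1) s) * (Vᴴ * V)).trace.re +
      l * (cutR X X (mF x (Y + 1) Y Y s) * (V * Vᴴ)).trace.re) with hf
  have hlim : Tendsto f atTop (𝓝 (IXj l (x * r) C X j)) := by
    have t1 := tendsto_lin hx hx1 hsx r j V (G := fun Y => Y + 1) (A := fun Y => Y)
      (B := fun Y => Y + 1) (fun Y => Nat.le_succ Y) (fun Y => le_rfl) (fun Y => Nat.le_succ Y)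
    have t3 := tendsto_trace_cutR (K := fun Y => mF x (Y + 1) (Y + 1) (Y + 1) s) (K₀ := C)
      (fun a b => tendsto_mF (hsx a b) (fun Y => Nat.le_succ Y) (fun Y => Nat.le_succ Y)
        (fun Y => Nat.le_succ Y)) (Vᴴ * V)
    have t4 := tendsto_trace_cutR (K := fun Y => mF x (Y + 1) Y Y s) (K₀ := C)
      (fun a b => tendsto_mF (hsx a b) (fun Y => Nat.le_succ Y) (fun Y => le_rfl)
        (fun Y => le_rfl)) (V * Vᴴ)
    have t := (t1.const_mul 2).sub ((t3.const_mul (1 - l)).add (t4.const_mul l))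
    refine t.trans (le_of_eq ?_)
    have e1 : IXj l (x * r) C X j = 2 * ((Zr (x * r) C X j)ᴴ * V).trace.re -
        ((1 - l) * (cutR (X + 1) (X + 1) C * (Vᴴ * V)).trace.re +
          l * (cutR X X C * (V * Vᴴ)).trace.re) := attV.symm
    rw [e1]
  have hle : ∀ Y, X ≤ Y → f Y ≤ x * IXj l r s Y j := by
    intro Y hY
    have hXΓ : X ≤ Y + 1 := by omega
    have hXΓ1 : X + 1 ≤ Y + 1 := by omega
    set V' := extR (Y + 1) V with hV'
    set J := Jb (n := n) x (Y + 1) (Y + 1) with hJ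
    set E := inc n (Nat.le_succ Y) with hE
    have hcut : Eᴴ * cut (Y + 1) s * E = cut Y s := incl_cut s _
    have hJE : J * E = Jb x (Y + 1) Y := Jb_mul_inc x (Y + 1) Y
    have hT' : JF x (Y + 1) Y Y s = (J * E) * (Eᴴ * cut (Y + 1) s * E) * (J * E)ᴴ := by
      rw [hcut, hJE]
      rfl
    have hpen := bs_pen_one (J := J) (Jb_contraction hx.le hx1 _ _) (E := E)
      (inc_isometry (Nat.le_succ Y)) (hs (Y + 1)).posSemidef V' (a := (Real.sqrt x)⁻¹)
      hl (T := JF x (Y + 1) (Y + 1) (Y + 1) s)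
      (T' := JF x (Y + 1) Y Y s) rfl hT'
    rw [hcut, hJE, tr_ext_col hXΓ hXΓ1 (mF x (Y + 1) (Y + 1) (Y + 1) s) (mar₁_JF x _ _ _ s) V,
      tr_ext_row hXΓ hXΓ1 (mF x (Y + 1) Y Y s) (mar₁_JF x _ _ _ s) V] at hpen
    have hvar := two_re_sub_pen_le hl (hs Y) (hs (Y + 1)) (Zr r s Y j)
      ((Jb (n := n) x (Y + 1) Y)ᴴ * tstB (Real.sqrt x)⁻¹ 0 V' (0 : Matrix (Ct n (Y + 1)) (Ct n (Y + 1)) ℂ) * J)
    rw [lin_trace, Zr_eq] at hvar
    have hlin : (Jb (n := n) x (Y + 1) Y * cutR Y (Y + 1) (zr r s j) * Jᴴ *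
        (tstB (Real.sqrt x)⁻¹ 0 V' (0 : Matrix (Ct n (Y + 1)) (Ct n (Y + 1)) ℂ))ᴴ).trace.re =
      (Real.sqrt x)⁻¹ * (cutR X (X + 1) (mF x (Y + 1) Y (Y + 1) (zr r s j)) * Vᴴ).trace.re := by
      have e0 : Jb (n := n) x (Y + 1) Y * cutR Y (Y + 1) (zr r s j) * Jᴴ = JF x (Y + 1) Y (Y + 1) (zr r s j) :=
        rfl
      have ca : star (((Real.sqrt x)⁻¹ : ℝ) : ℂ) = (((Real.sqrt x)⁻¹ : ℝ) : ℂ) :=
        Complex.conj_ofReal _
      rw [e0, tstB, conjTranspose_add, conjTranspose_smul, conjTranspose_smul,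
        conjTranspose_kronecker, conjTranspose_kronecker, conjTranspose_one, ca, Matrix.mul_add,
        Matrix.mul_smul, Matrix.mul_smul, trace_add, trace_smul, trace_smul, Complex.add_re,
        smul_eq_mul, smul_eq_mul, Complex.re_ofReal_mul, ← trace_mar₁, hV',
        tr_ext_lin hXΓ hXΓ1 (mF x (Y + 1) Y (Y + 1) (zr r s j)) (mar₁_JF x _ _ _ _) V]
      simp
    rw [hlin, ← Zr_eq] at hvar
    have hvar' := mul_le_mul_of_nonneg_left hvar hx.le
    change _ ≤ x * Qf l (cut Y s) (cut (Y + 1) s) (Zr r s Y j)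
    refine le_trans ?_ hvar'
    have hi : x * (Real.sqrt x)⁻¹ = Real.sqrt x := by
      rw [← div_eq_mul_inv, Real.div_sqrt]
    have hii : x * ((Real.sqrt x)⁻¹ * (Real.sqrt x)⁻¹) = 1 := by
      rw [← mul_assoc, hi, mul_inv_cancel₀ hxs]
    have hpen' := mul_le_mul_of_nonneg_left hpen hx.le
    rw [← mul_assoc x, hii, one_mul] at hpen'
    rw [hf]
    simp only
    rw [mul_sub]
    have e2 : x * (2 * ((Real.sqrt x)⁻¹ *
        (cutR X (X + 1) (mF x (Y + 1) Y (Y + 1) (zr r s j)) * Vᴴ).trace.re)) =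
        2 * (Real.sqrt x * (cutR X (X + 1) (mF x (Y + 1) Y (Y + 1) (zr r s j)) *
          Vᴴ).trace.re) := by
      linear_combination (2 * (cutR X (X + 1) (mF x (Y + 1) Y (Y + 1) (zr r s j)) *
        Vᴴ).trace.re) * hi
    rw [e2]
    linarith only [hpen']
  filter_upwards [hlim.eventually (lt_mem_nhds (a := IXj l (x * r) C X j - ε)
    (by linarith only [hε])), eventually_ge_atTop X] with Y h1 h2
  have h3 := hle Y h2
  linarith only [h1, h3]

end

end Vale.Agent.P369L
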