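import Vale.Agent.P369.H946.Bsc

/-!
P369L (helper946): the penalty inequality for the two outputs of a beam splitter, abstract form.
-/

namespace Vale.Agent.P369L

open Matrix MeasureTheory Set Filter
open Vale.Agent.P369 (Conf up down)
open Vale.Agent.P369A
open scoped Kronecker ComplexOrder Topology

noncomputable section

variable {ι κ γ δ : Type} [Fintype ι] [DecidableEq ι] [Fintype κ] [DecidableEq κ]
  [Fintype γ] [DecidableEq γ] [Fintype δ] [DecidableEq δ]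

/-- the test operator `a V ⊗ 1 + b 1 ⊗ W` -/
def tstB (a b : ℝ) (V : Matrix γ γ ℂ) (W : Matrix δ δ ℂ) : Matrix (γ × δ) (γ × δ) ℂ :=
  (a : ℂ) • (V ⊗ₖ (1 : Matrix δ δ ℂ)) + (b : ℂ) • ((1 : Matrix γ γ ℂ) ⊗ₖ W)

theorem bs_pen {J : Matrix (γ × δ) κ ℂ} (hJ : (1 - Jᴴ * J).PosSemidef) {E : Matrix κ ι ℂ}
    (hE : Eᴴ * E = 1) {ρ : Matrix κ κ ℂ} (hρ : ρ.PosSemidef) (V : Matrix γ γ ℂ)
    (W : Matrix δ δ ℂ) {a b l : ℝ} (hab : a * a + b * b = 1)
    (hl : l ∈ Icc (0 : ℝ) 1) {T T' : Matrix (γ × δ) (γ × δ) ℂ} (hT : T = J * ρ * Jᴴ)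
    (hT' : T' = (J * E) * (Eᴴ * ρ * E) * (J * E)ᴴ)
    (hχ : (T * (Vᴴ ⊗ₖ W + V ⊗ₖ Wᴴ)).trace.re = (T' * (Vᴴ ⊗ₖ W + V ⊗ₖ Wᴴ)).trace.re) :
    pen l (Eᴴ * ρ * E) ρ ((J * E)ᴴ * tstB a b V W * J) ≤
      (1 - a * a * l) * (mar₁ T * (Vᴴ * V)).trace.re + a * a * l * (mar₁ T' * (V * Vᴴ)).trace.re +
        ((1 - b * b * l) * (mar₂ T * (Wᴴ * W)).trace.re +
          b * b * l * (mar₂ T' * (W * Wᴴ)).trace.re) := by
  set σ : Matrix ι ι ℂ := Eᴴ * ρ * E with hσdef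
  have hσ : σ.PosSemidef := hρ.conjTranspose_mul_mul_same E
  set A : Matrix (γ × δ) (γ × δ) ℂ := tstB a b V W with hA
  have hJE : (1 - (J * E)ᴴ * (J * E)).PosSemidef := by
    have h := hJ.conjTranspose_mul_mul_same E
    have e : Eᴴ * (1 - Jᴴ * J) * E = 1 - (J * E)ᴴ * (J * E) := by
      rw [Matrix.mul_sub, Matrix.mul_one, Matrix.sub_mul, hE, conjTranspose_mul]
      simp only [Matrix.mul_assoc]
    rwa [e] at h
  have k1 : (ρ * (((J * E)ᴴ * A * J)ᴴ * ((J * E)ᴴ * A * J))).trace.re ≤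
      (T * (Aᴴ * A)).trace.re := by
    rw [hT]
    exact kadison hJE J hρ A
  have k2 : (σ * (((J * E)ᴴ * A * J) * ((J * E)ᴴ * A * J)ᴴ)).trace.re ≤
      (T' * (A * Aᴴ)).trace.re := by
    have h := kadison hJ (J * E) hσ Aᴴ
    have e : (J * E)ᴴ * A * J = (Jᴴ * Aᴴ * (J * E))ᴴ := by
      rw [conjTranspose_mul (Jᴴ * Aᴴ) (J * E), conjTranspose_mul Jᴴ Aᴴ,
        conjTranspose_conjTranspose, conjTranspose_conjTranspose, Matrix.mul_assoc]
    rw [e, conjTranspose_conjTranspose, hT']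
    rw [conjTranspose_conjTranspose] at h
    exact h
  set v : Matrix (γ × δ) (γ × δ) ℂ := V ⊗ₖ (1 : Matrix δ δ ℂ) with hv
  set w : Matrix (γ × δ) (γ × δ) ℂ := (1 : Matrix γ γ ℂ) ⊗ₖ W with hw
  have hvH : vᴴ = Vᴴ ⊗ₖ (1 : Matrix δ δ ℂ) := by rw [hv, conjTranspose_kronecker, conjTranspose_one]
  have hwH : wᴴ = (1 : Matrix γ γ ℂ) ⊗ₖ Wᴴ := by rw [hw, conjTranspose_kronecker, conjTranspose_one]
  have c1 : w * vᴴ = vᴴ * w := by
    rw [hvH, hw, ← mul_kronecker_mul, ← mul_kronecker_mul]; simp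
  have c2 : wᴴ * v = v * wᴴ := by
    rw [hwH, hv, ← mul_kronecker_mul, ← mul_kronecker_mul]; simp
  have c3 : Vᴴ ⊗ₖ W + V ⊗ₖ Wᴴ = vᴴ * w + v * wᴴ := by
    rw [hvH, hwH, hv, hw, ← mul_kronecker_mul, ← mul_kronecker_mul, Matrix.mul_one,
      Matrix.one_mul, Matrix.mul_one, Matrix.one_mul]
  rw [c3] at hχ
  have hAv : A = (a : ℂ) • v + (b : ℂ) • w := rfl
  have hca : star (a : ℂ) = (a : ℂ) := Complex.conj_ofReal _
  have hcb : star (b : ℂ) = (b : ℂ) := Complex.conj_ofReal _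
  have hAH : Aᴴ = (a : ℂ) • vᴴ + (b : ℂ) • wᴴ := by
    rw [hAv, conjTranspose_add, conjTranspose_smul, conjTranspose_smul, hca, hcb]
  have q1 : Aᴴ * A = ((a * a : ℝ) : ℂ) • (vᴴ * v) + ((b * b : ℝ) : ℂ) • (wᴴ * w) +
      ((a * b : ℝ) : ℂ) • (vᴴ * w + v * wᴴ) := by
    rw [hAH, hAv]
    simp only [Matrix.mul_add, Matrix.mul_smul, Matrix.add_mul, smul_mul, c2]
    push_cast
    module
  have q2 : A * Aᴴ = ((a * a : ℝ) : ℂ) • (v * vᴴ) + ((b * b : ℝ) : ℂ) • (w * wᴴ) +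
      ((a * b : ℝ) : ℂ) • (vᴴ * w + v * wᴴ) := by
    rw [hAH, hAv]
    simp only [Matrix.add_mul, Matrix.mul_add, Matrix.smul_mul, Matrix.mul_smul, c1]
    push_cast
    module
  have q3 : ((a * b : ℝ) : ℂ) • (vᴴ * w + v * wᴴ) = ((b * b : ℝ) : ℂ) • (vᴴ * v) +
      ((a * a : ℝ) : ℂ) • (wᴴ * w) -
      ((b : ℂ) • v - (a : ℂ) • w)ᴴ * ((b : ℂ) • v - (a : ℂ) • w) := by
    rw [conjTranspose_sub, conjTranspose_smul, conjTranspose_smul, hca, hcb]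
    simp only [Matrix.sub_mul, Matrix.mul_sub, Matrix.smul_mul, Matrix.mul_smul, c2]
    push_cast
    module
  have hTp : T.PosSemidef := by
    rw [hT]
    exact hρ.mul_mul_conjTranspose_same J
  have hY : 0 ≤ (T * (((b : ℂ) • v - (a : ℂ) • w)ᴴ * ((b : ℂ) • v - (a : ℂ) • w))).trace.re :=
    trace_gram_nonneg hTp _
  have hre : ∀ (S : Matrix (γ × δ) (γ × δ) ℂ) (c : ℝ) (B : Matrix (γ × δ) (γ × δ) ℂ),
      (S * ((c : ℂ) • B)).trace.re = c * (S * B).trace.re := by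
    intro S c B
    rw [Matrix.mul_smul, trace_smul, smul_eq_mul, Complex.re_ofReal_mul]
  have hadd : ∀ S B B' : Matrix (γ × δ) (γ × δ) ℂ,
      (S * (B + B')).trace.re = (S * B).trace.re + (S * B').trace.re := by
    intro S B B'
    rw [Matrix.mul_add, trace_add, Complex.add_re]
  have hsub : ∀ S B B' : Matrix (γ × δ) (γ × δ) ℂ,
      (S * (B - B')).trace.re = (S * B).trace.re - (S * B').trace.re := by
    intro S B B'
    rw [Matrix.mul_sub, trace_sub, Complex.sub_re]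
  have hχ' : a * b * (T * (vᴴ * w + v * wᴴ)).trace.re = b * b * (T * (vᴴ * v)).trace.re +
      a * a * (T * (wᴴ * w)).trace.re -
      (T * (((b : ℂ) • v - (a : ℂ) • w)ᴴ * ((b : ℂ) • v - (a : ℂ) • w))).trace.re := by
    rw [← hre, q3, hsub, hadd, hre, hre]
  have r1 : (T * (Aᴴ * A)).trace.re = a * a * (T * (vᴴ * v)).trace.re +
      b * b * (T * (wᴴ * w)).trace.re + a * b * (T * (vᴴ * w + v * wᴴ)).trace.re := by
    rw [q1, hadd, hadd, hre, hre, hre]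
  have r2 : (T' * (A * Aᴴ)).trace.re = a * a * (T' * (v * vᴴ)).trace.re +
      b * b * (T' * (w * wᴴ)).trace.re + a * b * (T * (vᴴ * w + v * wᴴ)).trace.re := by
    rw [q2, hadd, hadd, hre, hre, hre, hχ]
  have m1 : (mar₁ T * (Vᴴ * V)).trace.re = (T * (vᴴ * v)).trace.re := by
    rw [trace_mar₁, hvH, hv, ← mul_kronecker_mul, Matrix.one_mul]
  have m2 : (mar₁ T' * (V * Vᴴ)).trace.re = (T' * (v * vᴴ)).trace.re := by
    rw [trace_mar₁, hvH, hv, ← mul_kronecker_mul, Matrix.one_mul]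
  have m3 : (mar₂ T * (Wᴴ * W)).trace.re = (T * (wᴴ * w)).trace.re := by
    rw [trace_mar₂, hwH, hw, ← mul_kronecker_mul, Matrix.one_mul]
  have m4 : (mar₂ T' * (W * Wᴴ)).trace.re = (T' * (w * wᴴ)).trace.re := by
    rw [trace_mar₂, hwH, hw, ← mul_kronecker_mul, Matrix.one_mul]
  unfold pen
  rw [m1, m2, m3, m4]
  have n1 := mul_le_mul_of_nonneg_left k1 (sub_nonneg.2 hl.2)
  have n2 := mul_le_mul_of_nonneg_left k2 hl.1
  rw [r1, hχ'] at n1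
  rw [r2, hχ'] at n2
  have hb1 : b * b = 1 - a * a := by linarith only [hab]
  rw [hb1] at n1 n2 ⊢
  linarith

/-- the same with one output -/
theorem bs_pen_one {J : Matrix (γ × δ) κ ℂ} (hJ : (1 - Jᴴ * J).PosSemidef) {E : Matrix κ ι ℂ}
    (hE : Eᴴ * E = 1) {ρ : Matrix κ κ ℂ} (hρ : ρ.PosSemidef) (V : Matrix γ γ ℂ)
    {a l : ℝ} (hl : l ∈ Icc (0 : ℝ) 1) {T T' : Matrix (γ × δ) (γ × δ) ℂ} (hT : T = J * ρ * Jᴴ)
    (hT' : T' = (J * E) * (Eᴴ * ρ * E) * (J * E)ᴴ) :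
    pen l (Eᴴ * ρ * E) ρ ((J * E)ᴴ * tstB a 0 V (0 : Matrix δ δ ℂ) * J) ≤
      a * a * ((1 - l) * (mar₁ T * (Vᴴ * V)).trace.re + l * (mar₁ T' * (V * Vᴴ)).trace.re) := by
  set σ : Matrix ι ι ℂ := Eᴴ * ρ * E with hσdef
  have hσ : σ.PosSemidef := hρ.conjTranspose_mul_mul_same E
  set A : Matrix (γ × δ) (γ × δ) ℂ := tstB a 0 V (0 : Matrix δ δ ℂ) with hA
  have hJE : (1 - (J * E)ᴴ * (J * E)).PosSemidef := by
    have h := hJ.conjTranspose_mul_mul_same E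
    have e : Eᴴ * (1 - Jᴴ * J) * E = 1 - (J * E)ᴴ * (J * E) := by
      rw [Matrix.mul_sub, Matrix.mul_one, Matrix.sub_mul, hE, conjTranspose_mul]
      simp only [Matrix.mul_assoc]
    rwa [e] at h
  have k1 : (ρ * (((J * E)ᴴ * A * J)ᴴ * ((J * E)ᴴ * A * J))).trace.re ≤
      (T * (Aᴴ * A)).trace.re := by
    rw [hT]
    exact kadison hJE J hρ A
  have k2 : (σ * (((J * E)ᴴ * A * J) * ((J * E)ᴴ * A * J)ᴴ)).trace.re ≤
      (T' * (A * Aᴴ)).trace.re := by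
    have h := kadison hJ (J * E) hσ Aᴴ
    have e : (J * E)ᴴ * A * J = (Jᴴ * Aᴴ * (J * E))ᴴ := by
      rw [conjTranspose_mul (Jᴴ * Aᴴ) (J * E), conjTranspose_mul Jᴴ Aᴴ,
        conjTranspose_conjTranspose, conjTranspose_conjTranspose, Matrix.mul_assoc]
    rw [e, conjTranspose_conjTranspose, hT']
    rw [conjTranspose_conjTranspose] at h
    exact h
  set v : Matrix (γ × δ) (γ × δ) ℂ := V ⊗ₖ (1 : Matrix δ δ ℂ) with hv
  have hvH : vᴴ = Vᴴ ⊗ₖ (1 : Matrix δ δ ℂ) := by rw [hv, conjTranspose_kronecker, conjTranspose_one]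
  have hAv : A = (a : ℂ) • v := by
    rw [hA, hv]
    unfold tstB
    simp
  have hca : star (a : ℂ) = (a : ℂ) := Complex.conj_ofReal _
  have hAH : Aᴴ = (a : ℂ) • vᴴ := by
    rw [hAv, conjTranspose_smul, hca]
  have q1 : Aᴴ * A = ((a * a : ℝ) : ℂ) • (vᴴ * v) := by
    rw [hAH, hAv]
    simp only [Matrix.mul_smul, smul_mul]
    push_cast
    module
  have q2 : A * Aᴴ = ((a * a : ℝ) : ℂ) • (v * vᴴ) := by
    rw [hAH, hAv]
    simp only [Matrix.smul_mul, Matrix.mul_smul]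
    push_cast
    module
  have hre : ∀ (S : Matrix (γ × δ) (γ × δ) ℂ) (c : ℝ) (B : Matrix (γ × δ) (γ × δ) ℂ),
      (S * ((c : ℂ) • B)).trace.re = c * (S * B).trace.re := by
    intro S c B
    rw [Matrix.mul_smul, trace_smul, smul_eq_mul, Complex.re_ofReal_mul]
  have m1 : (mar₁ T * (Vᴴ * V)).trace.re = (T * (vᴴ * v)).trace.re := by
    rw [trace_mar₁, hvH, hv, ← mul_kronecker_mul, Matrix.one_mul]
  have m2 : (mar₁ T' * (V * Vᴴ)).trace.re = (T' * (v * vᴴ)).trace.re := by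
    rw [trace_mar₁, hvH, hv, ← mul_kronecker_mul, Matrix.one_mul]
  unfold pen
  rw [m1, m2]
  have n1 := mul_le_mul_of_nonneg_left k1 (sub_nonneg.2 hl.2)
  have n2 := mul_le_mul_of_nonneg_left k2 hl.1
  rw [q1, hre] at n1
  rw [q2, hre] at n2
  linarith

end

end Vale.Agent.P369L
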