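import Vale.Agent.P369.Bd3.B2

/-!
P369L (helper946): matrix elements of the beam splitter with vacuum second input.
-/

namespace Vale.Agent.P369L

open Matrix MeasureTheory Set Filter
open Vale.Agent.P369 (Conf up down)
open Vale.Agent.P369A
open scoped ComplexOrder Topology

noncomputable section

/-- one mode: `⟨a, c| J |a + c⟩` -/
def b1 (x : ℝ) (a c : ℕ) : ℝ :=
  Real.sqrt ((a + c).choose c : ℕ) * Real.sqrt x ^ a * Real.sqrt (1 - x) ^ c

theorem b1_nonneg (x : ℝ) (a c : ℕ) : 0 ≤ b1 x a c := by unfold b1; positivity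

theorem b1_sq {x : ℝ} (h0 : 0 ≤ x) (h1 : x ≤ 1) (a c : ℕ) :
    b1 x a c ^ 2 = ((a + c).choose c : ℕ) * x ^ a * (1 - x) ^ c := by
  unfold b1
  rw [mul_pow, mul_pow, Real.sq_sqrt (Nat.cast_nonneg _), ← pow_mul, ← pow_mul, mul_comm a 2,
    mul_comm c 2, pow_mul, pow_mul, Real.sq_sqrt h0, Real.sq_sqrt (by linarith only [h1])]

theorem b1_symm (x : ℝ) (a c : ℕ) : b1 (1 - x) c a = b1 x a c := by
  unfold b1
  rw [show (1 : ℝ) - (1 - x) = x by ring, add_comm c a, ← Nat.choose_symm_add (a := a) (b := c)]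
  ring

/-- total probability -/
theorem sum_b1_sq {x : ℝ} (h0 : 0 ≤ x) (h1 : x ≤ 1) (m : ℕ) :
    ∑ c ∈ Finset.range (m + 1), b1 x (m - c) c ^ 2 = 1 := by
  have h := add_pow (1 - x) x m
  rw [sub_add_cancel, one_pow] at h
  rw [h]
  refine Finset.sum_congr rfl fun c hc => ?_
  rw [Finset.mem_range] at hc
  rw [b1_sq h0 h1, Nat.sub_add_cancel (by omega)]
  ring

theorem b1_le_one {x : ℝ} (h0 : 0 ≤ x) (h1 : x ≤ 1) (a c : ℕ) : b1 x a c ≤ 1 := by
  have h := sum_b1_sq h0 h1 (a + c)
  have h2 : b1 x (a + c - c) c ^ 2 ≤ ∑ c' ∈ Finset.range (a + c + 1), b1 x (a + c - c') c' ^ 2 :=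
    Finset.single_le_sum (f := fun c' => b1 x (a + c - c') c' ^ 2) (fun _ _ => sq_nonneg _)
      (Finset.mem_range.2 (by omega))
  rw [h, Nat.add_sub_cancel] at h2
  nlinarith [b1_nonneg x a c, h2]

theorem b1_up {x : ℝ} (a c : ℕ) :
    Real.sqrt (a + 1) * b1 x (a + 1) c = Real.sqrt x * (Real.sqrt (a + c + 1) * b1 x a c) := by
  unfold b1
  have e : (a + 1) * (a + 1 + c).choose c = (a + c + 1) * (a + c).choose c := by
    have h := Nat.add_one_mul_choose_eq (a + c) a
    have h2 : (a + c).choose a = (a + c).choose c := Nat.choose_symm_add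
    have h3 : (a + c + 1).choose (a + 1) = (a + 1 + c).choose c := by
      rw [show a + c + 1 = a + 1 + c by ring]
      exact Nat.choose_symm_add
    rw [h2, h3] at h
    rw [h]
    ring
  have e' : ((a : ℝ) + 1) * ((a + 1 + c).choose c : ℕ) =
      ((a : ℝ) + c + 1) * ((a + c).choose c : ℕ) := by exact_mod_cast e
  have e2 : Real.sqrt (a + 1) * Real.sqrt ((a + 1 + c).choose c : ℕ) =
      Real.sqrt (a + c + 1) * Real.sqrt ((a + c).choose c : ℕ) := by
    rw [← Real.sqrt_mul (by positivity), ← Real.sqrt_mul (by positivity), e']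
  rw [pow_succ]
  linear_combination (Real.sqrt x ^ a * Real.sqrt x * Real.sqrt (1 - x) ^ c) * e2

theorem b1_up' {x : ℝ} (a c : ℕ) :
    Real.sqrt (c + 1) * b1 x a (c + 1) =
      Real.sqrt (1 - x) * (Real.sqrt (a + c + 1) * b1 x a c) := by
  have h := b1_up (x := 1 - x) c a
  rw [b1_symm, b1_symm] at h
  rw [h, show (c : ℝ) + a + 1 = a + c + 1 by ring]

variable {n : ℕ}

/-- several modes: `⟨p, l| J |p + l⟩` -/
def bsc (x : ℝ) (p l : Conf n) : ℝ := ∏ j, b1 x (p j) (l j)

theorem bsc_nonneg (x : ℝ) (p l : Conf n) : 0 ≤ bsc x p l :=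
  Finset.prod_nonneg fun _ _ => b1_nonneg _ _ _

theorem bsc_le_one {x : ℝ} (h0 : 0 ≤ x) (h1 : x ≤ 1) (p l : Conf n) : bsc x p l ≤ 1 :=
  Finset.prod_le_one (fun _ _ => b1_nonneg _ _ _) fun _ _ => b1_le_one h0 h1 _ _

theorem bsc_symm (x : ℝ) (p l : Conf n) : bsc (1 - x) l p = bsc x p l :=
  Finset.prod_congr rfl fun _ _ => b1_symm _ _ _

theorem bsc_sq_symm {x y : ℝ} (h : x + y = 1) (p l : Conf n) : bsc y l p = bsc x p l := by
  rw [← bsc_symm x p l, show 1 - x = y by linarith only [h]]

theorem prod_update_up (F : Fin n → ℕ → ℝ) (p : Conf n) (j : Fin n) :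
    ∏ i, F i (up p j i) = F j (p j + 1) * ∏ i ∈ Finset.univ.erase j, F i (p i) := by
  rw [← Finset.mul_prod_erase Finset.univ (fun i => F i (up p j i)) (Finset.mem_univ j),
    gfx_up_apply_self]
  congr 1
  refine Finset.prod_congr rfl fun i hi => ?_
  rw [Finset.mem_erase] at hi
  unfold up
  rw [Function.update_of_ne hi.1]

theorem prod_erase' (F : Fin n → ℕ → ℝ) (p : Conf n) (j : Fin n) :
    ∏ i, F i (p i) = F j (p j) * ∏ i ∈ Finset.univ.erase j, F i (p i) :=
  (Finset.mul_prod_erase Finset.univ (fun i => F i (p i)) (Finset.mem_univ j)).symm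

theorem bsc_up {x : ℝ} (p l : Conf n) (j : Fin n) :
    Real.sqrt (p j + 1) * bsc x (up p j) l =
      Real.sqrt x * (Real.sqrt (p j + l j + 1) * bsc x p l) := by
  unfold bsc
  rw [prod_update_up (fun i a => b1 x a (l i)) p j, prod_erase' (fun i a => b1 x a (l i)) p j,
    ← mul_assoc, b1_up]
  ring

theorem bsc_up' {x : ℝ} (p l : Conf n) (j : Fin n) :
    Real.sqrt (l j + 1) * bsc x p (up l j) =
      Real.sqrt (1 - x) * (Real.sqrt (p j + l j + 1) * bsc x p l) := by
  unfold bsc
  rw [prod_update_up (fun i a => b1 x (p i) a) l j, prod_erase' (fun i a => b1 x (p i) a) l j,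
    ← mul_assoc, b1_up']
  ring

theorem up_add (p l : Conf n) (j : Fin n) : up p j + l = up (p + l) j := by
  funext i
  unfold up
  by_cases h : i = j
  · subst h
    simp only [Pi.add_apply, Function.update_self]
    ring
  · simp only [Pi.add_apply, Function.update_of_ne h]

theorem add_up (p l : Conf n) (j : Fin n) : p + up l j = up (p + l) j := by
  rw [add_comm, up_add, add_comm l p]

/-- `J a†` -/
theorem bsc_down {x : ℝ} (p l : Conf n) (j : Fin n) :
    Real.sqrt (p j + l j) * bsc x p l =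
      Real.sqrt x * (Real.sqrt (p j) * bsc x (down p j) l) +
        Real.sqrt (1 - x) * (Real.sqrt (l j) * bsc x p (down l j)) := by
  have key : ∀ m : ℝ, 0 < m → ∀ A B C : ℝ, ∀ a c : ℝ, m = a + c →
      a * A = Real.sqrt m * B → c * A = Real.sqrt m * C → Real.sqrt m * A = B + C := by
    intro m hm A B C a c h h1 h2
    have hs : Real.sqrt m ≠ 0 := (Real.sqrt_pos.2 hm).ne'
    have e := Real.mul_self_sqrt hm.le
    apply mul_left_cancel₀ hs
    rw [mul_add, ← h1, ← h2, ← mul_assoc, e, h]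
    ring
  have h1 : (p j : ℝ) * bsc x p l = Real.sqrt (p j + l j) *
      (Real.sqrt x * (Real.sqrt (p j) * bsc x (down p j) l)) := by
    by_cases hp : p j = 0
    · rw [hp]; simp
    · have h := bsc_up (x := x) (down p j) l j
      rw [gfx_up_down hp] at h
      have e : ((down p j j : ℕ) : ℝ) + 1 = p j := by
        have : down p j j + 1 = p j := by
          unfold down
          rw [Function.update_self]
          omega
        exact_mod_cast this
      have e2 : ((down p j j : ℕ) : ℝ) + l j + 1 = p j + l j := by linarith only [e]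
      rw [e, e2] at h
      have hs : (p j : ℝ) = Real.sqrt (p j) * Real.sqrt (p j) :=
        (Real.mul_self_sqrt (Nat.cast_nonneg _)).symm
      calc (p j : ℝ) * bsc x p l = Real.sqrt (p j) * (Real.sqrt (p j) * bsc x p l) := by
            rw [← mul_assoc, ← hs]
        _ = _ := by rw [h]; ring
  have h2 : (l j : ℝ) * bsc x p l = Real.sqrt (p j + l j) *
      (Real.sqrt (1 - x) * (Real.sqrt (l j) * bsc x p (down l j))) := by
    by_cases hl : l j = 0
    · rw [hl]; simp
    · have h := bsc_up' (x := x) p (down l j) j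
      rw [gfx_up_down hl] at h
      have e : ((down l j j : ℕ) : ℝ) + 1 = l j := by
        have : down l j j + 1 = l j := by
          unfold down
          rw [Function.update_self]
          omega
        exact_mod_cast this
      have e2 : (p j : ℝ) + (down l j j : ℕ) + 1 = p j + l j := by linarith only [e]
      rw [e, e2] at h
      have hs : (l j : ℝ) = Real.sqrt (l j) * Real.sqrt (l j) :=
        (Real.mul_self_sqrt (Nat.cast_nonneg _)).symm
      calc (l j : ℝ) * bsc x p l = Real.sqrt (l j) * (Real.sqrt (l j) * bsc x p l) := by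
            rw [← mul_assoc, ← hs]
        _ = _ := by rw [h]; ring
  by_cases h0 : (p j : ℝ) + l j = 0
  · have hp : (p j : ℝ) = 0 := by
      have := Nat.cast_nonneg (α := ℝ) (p j)
      have := Nat.cast_nonneg (α := ℝ) (l j)
      linarith
    have hl : (l j : ℝ) = 0 := by linarith
    rw [hp, hl]
    simp
  · have hm : (0 : ℝ) < p j + l j := lt_of_le_of_ne (by positivity) (Ne.symm h0)
    exact key _ hm _ _ _ _ _ rfl h1 h2

/-- total probability -/
theorem sum_bsc_sq {x : ℝ} (h0 : 0 ≤ x) (h1 : x ≤ 1) (m : Conf n) :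
    ∑ l ∈ Finset.Iic m, bsc x (m - l) l ^ 2 = 1 := by
  have e : ∀ l : Conf n, bsc x (m - l) l ^ 2 = ∏ j, b1 x (m j - l j) (l j) ^ 2 := by
    intro l
    unfold bsc
    rw [← Finset.prod_pow]
    rfl
  simp only [e]
  have e2 : (Finset.Iic m : Finset (Conf n)) = Fintype.piFinset fun j => Finset.Iic (m j) := by
    ext l
    simp only [Finset.mem_Iic, Fintype.mem_piFinset, Pi.le_def]
  rw [e2, ← Finset.prod_univ_sum (f := fun j c => b1 x (m j - c) c ^ 2)]
  refine Finset.prod_eq_one fun j _ => ?_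
  rw [← sum_b1_sq h0 h1 (m j)]
  refine Finset.sum_congr ?_ fun _ _ => rfl
  ext c
  simp only [Finset.mem_Iic, Finset.mem_range]
  omega

end

end Vale.Agent.P369L
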