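import Vale.Agent.P369.H946.Semi

/-!
P369L (helper946): derivative and continuity of the loss channel on infinite matrices.
-/

namespace Vale.Agent.P369L

open Matrix MeasureTheory Set Filter
open Vale.Agent.P369 (Conf up down)
open Vale.Agent.P369A
open Vale.Agent.P369F
open scoped Kronecker ComplexOrder Topology

noncomputable section

variable {n : ℕ}

theorem continuous_bsc (a q : Conf n) : Continuous fun x : ℝ => bsc x a q := by
  unfold bsc b1
  refine continuous_finsetProd _ fun j _ => ?_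
  fun_prop

theorem continuous_lt (s : Ker n) (a b q : Conf n) : Continuous fun x : ℝ => lt x s a b q := by
  unfold lt
  exact (Complex.continuous_ofReal.comp ((continuous_bsc a q).mul (continuous_bsc b q))).mul
    continuous_const

/-- T4: continuity -/
theorem continuousOn_lossI {s : Ker n} (hs : ∀ X, (cut X s).PosSemidef)
    (hd : Summable fun x : Conf n => (s x x).re) (a b : Conf n) :
    ContinuousOn (fun x : ℝ => lossI x s a b) (Icc 0 1) :=
  continuousOn_tsum (fun q => (continuous_lt s a b q).continuousOn) (summable_norm_shift hs hd a b)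
    fun q _ hx => norm_lt_le hx.1 hx.2 s a b q

theorem continuousOn_cut_lossI {s : Ker n} (hs : ∀ X, (cut X s).PosSemidef)
    (hd : Summable fun x : Conf n => (s x x).re) (X : ℕ) :
    ContinuousOn (fun x : ℝ => cut X (lossI x s)) (Icc 0 1) := by
  refine continuousOn_pi.2 fun a => continuousOn_pi.2 fun b => ?_
  exact continuousOn_lossI hs hd a.1 b.1

/-! ### derivative of the coefficients -/

theorem hasDerivAt_sqrt_pow {x : ℝ} (hx : 0 < x) (k : ℕ) :
    HasDerivAt (fun x : ℝ => Real.sqrt x ^ k) (Real.sqrt x ^ k * (k / (2 * x))) x := by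
  have h : HasDerivAt (fun x : ℝ => Real.sqrt x ^ k)
      (k * Real.sqrt x ^ (k - 1) * (1 / (2 * Real.sqrt x))) x :=
    (Real.hasDerivAt_sqrt hx.ne').fun_pow k
  have hs : Real.sqrt x ≠ 0 := (Real.sqrt_pos.2 hx).ne'
  have hxx : Real.sqrt x * Real.sqrt x = x := Real.mul_self_sqrt hx.le
  refine h.congr_deriv ?_
  cases k with
  | zero => simp
  | succ k =>
    have e : (2 * x) = 2 * (Real.sqrt x * Real.sqrt x) := by rw [hxx]
    rw [e, Nat.add_sub_cancel]
    field_simp
    rw [pow_succ]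

theorem hasDerivAt_sqrt_one_sub_pow {x : ℝ} (hx : x < 1) (k : ℕ) :
    HasDerivAt (fun x : ℝ => Real.sqrt (1 - x) ^ k)
      (Real.sqrt (1 - x) ^ k * (-(k / (2 * (1 - x))))) x := by
  have h := hasDerivAt_sqrt_pow (x := 1 - x) (by linarith only [hx]) k
  have h2 : HasDerivAt (fun x : ℝ => 1 - x) (-1) x := by
    simpa using (hasDerivAt_id x).const_sub 1
  have h3 : HasDerivAt (fun x : ℝ => Real.sqrt (1 - x) ^ k)
      (Real.sqrt (1 - x) ^ k * (k / (2 * (1 - x))) * (-1)) x := h.comp x h2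
  refine h3.congr_deriv ?_
  ring

theorem hasDerivAt_b1 {x : ℝ} (hx : 0 < x) (hx1 : x < 1) (a c : ℕ) :
    HasDerivAt (fun x : ℝ => b1 x a c) (b1 x a c * ((a : ℝ) / (2 * x) - c / (2 * (1 - x)))) x := by
  unfold b1
  have h := ((hasDerivAt_sqrt_pow hx a).const_mul
    (Real.sqrt ((a + c).choose c : ℕ))).fun_mul (hasDerivAt_sqrt_one_sub_pow hx1 c)
  refine h.congr_deriv ?_
  ring

theorem hasDerivAt_bsc {x : ℝ} (hx : 0 < x) (hx1 : x < 1) (a q : Conf n) :
    HasDerivAt (fun x : ℝ => bsc x a q)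
      (bsc x a q * ∑ j, ((a j : ℝ) / (2 * x) - q j / (2 * (1 - x)))) x := by
  unfold bsc
  have h := HasDerivAt.fun_finsetProd (u := Finset.univ)
    (f := fun (j : Fin n) (x : ℝ) => b1 x (a j) (q j))
    (fun j _ => hasDerivAt_b1 hx hx1 (a j) (q j))
  refine h.congr_deriv ?_
  rw [Finset.mul_sum]
  refine Finset.sum_congr rfl fun j _ => ?_
  rw [← Finset.mul_prod_erase Finset.univ (fun j => b1 x (a j) (q j)) (Finset.mem_univ j),
    smul_eq_mul]
  ring

/-- the logarithmic derivative of the terms -/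
def ldl (x : ℝ) (a b q : Conf n) : ℝ :=
  ∑ j, (((a j : ℝ) + b j) / (2 * x) - q j / (1 - x))

theorem hasDerivAt_lt {x : ℝ} (hx : 0 < x) (hx1 : x < 1) (s : Ker n) (a b q : Conf n) :
    HasDerivAt (fun x : ℝ => lt x s a b q) ((ldl x a b q : ℂ) * lt x s a b q) x := by
  have h := ((hasDerivAt_bsc hx hx1 a q).fun_mul (hasDerivAt_bsc hx hx1 b q)).ofReal_comp.mul_const
    (s (a + q) (b + q))
  refine h.congr_deriv ?_
  unfold lt ldl
  have e : ∑ j, (((a j : ℝ) + b j) / (2 * x) - q j / (1 - x)) =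
      ∑ j, ((a j : ℝ) / (2 * x) - q j / (2 * (1 - x))) +
        ∑ j, ((b j : ℝ) / (2 * x) - q j / (2 * (1 - x))) := by
    rw [← Finset.sum_add_distrib]
    refine Finset.sum_congr rfl fun j _ => ?_
    have : 1 - x ≠ 0 := by
      intro h0
      linarith only [h0, hx1]
    field_simp
    ring
  rw [e]
  push_cast
  ring

/-! ### domination -/

/-- the dominating series -/
def dmj (s : Ker n) (a b : Conf n) (j : Fin n) (q : Conf n) : ℝ :=
  ((a + q) j : ℝ) * (s (a + q) (a + q)).re + ((b + q) j : ℝ) * (s (b + q) (b + q)).re +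
    ((s (a + q) (a + q)).re + (s (b + q) (b + q)).re)

theorem summable_dmj {s : Ker n} {E : ℝ} (h : Reg s E) (a b : Conf n) (j : Fin n) :
    Summable (dmj s a b j) := by
  have h1 := summable_of_reg h
  have h2 := summable_enj_of_reg h j
  exact ((h2.comp_injective (add_left_inj' a)).add (h2.comp_injective (add_left_inj' b))).add
    ((h1.comp_injective (add_left_inj' a)).add (h1.comp_injective (add_left_inj' b)))

theorem mul_ker_le {s : Ker n} (hs : ∀ X, (cut X s).PosSemidef) (a b q : Conf n) (j : Fin n) :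
    (q j : ℝ) * ‖s (a + q) (b + q)‖ ≤ dmj s a b j q := by
  have h1 := ker_mul_le hs (a + q) (b + q)
  have h2 := diag_nonneg_of_cut hs (a + q)
  have h3 := diag_nonneg_of_cut hs (b + q)
  have h4 : (q j : ℝ) ≤ ((a + q) j : ℕ) := by
    rw [Pi.add_apply]; exact_mod_cast Nat.le_add_left _ _
  have h5 : (q j : ℝ) ≤ ((b + q) j : ℕ) := by
    rw [Pi.add_apply]; exact_mod_cast Nat.le_add_left _ _
  have h6 := mul_le_mul_of_nonneg_left h1 (Nat.cast_nonneg (α := ℝ) (q j))
  have h7 := mul_le_mul_of_nonneg_right h4 h2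
  have h8 := mul_le_mul_of_nonneg_right h5 h3
  unfold dmj
  linarith only [h6, h7, h8, h2, h3]

/-- the bound of the derivative of the terms -/
theorem norm_der_le {α β x : ℝ} (hα : 0 < α) (hβ : β < 1) (hx : x ∈ Ioo α β) {s : Ker n}
    (hs : ∀ X, (cut X s).PosSemidef) (a b q : Conf n) :
    ‖(ldl x a b q : ℂ) * lt x s a b q‖ ≤
      ∑ j, (((a j : ℝ) + b j) / (2 * α) * ‖s (a + q) (b + q)‖ + (1 - β)⁻¹ * dmj s a b j q) := by
  have hx0 : 0 < x := hα.trans hx.1
  have hx1 : x < 1 := hx.2.trans hβ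
  have h1 : |ldl x a b q| ≤ ∑ j, (((a j : ℝ) + b j) / (2 * α) + q j * (1 - β)⁻¹) := by
    unfold ldl
    refine (Finset.abs_sum_le_sum_abs _ _).trans (Finset.sum_le_sum fun j _ => ?_)
    have h2 : ((a j : ℝ) + b j) / (2 * x) ≤ ((a j : ℝ) + b j) / (2 * α) :=
      div_le_div_of_nonneg_left (by positivity) (by linarith only [hα]) (by linarith only [hx.1])
    have h3 : (q j : ℝ) / (1 - x) ≤ q j * (1 - β)⁻¹ := by
      rw [← div_eq_mul_inv]
      exact div_le_div_of_nonneg_left (Nat.cast_nonneg _) (by linarith only [hβ])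
        (by linarith only [hx.2])
    have h4 : 0 ≤ ((a j : ℝ) + b j) / (2 * x) := by positivity
    have h5 : 0 ≤ (q j : ℝ) / (1 - x) :=
      div_nonneg (Nat.cast_nonneg _) (by linarith only [hx1])
    rw [abs_le]
    constructor <;> linarith only [h2, h3, h4, h5]
  rw [norm_mul, Complex.norm_real, Real.norm_eq_abs]
  have h6 : ‖lt x s a b q‖ ≤ ‖s (a + q) (b + q)‖ := norm_lt_le hx0.le hx1.le s a b q
  refine (mul_le_mul h1 h6 (norm_nonneg _) ((abs_nonneg _).trans h1)).trans ?_
  rw [Finset.sum_mul]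
  refine Finset.sum_le_sum fun j _ => ?_
  have h7 := mul_ker_le hs a b q j
  have h8 : 0 ≤ (1 - β)⁻¹ := inv_nonneg.2 (by linarith only [hβ])
  have h9 := mul_le_mul_of_nonneg_left h7 h8
  rw [add_mul]
  linarith only [h9]

/-- termwise derivative of the loss channel -/
theorem hasDerivAt_lossI_aux {x : ℝ} (hx : 0 < x) (hx1 : x < 1) {s : Ker n} {E : ℝ} (h : Reg s E)
    (a b : Conf n) :
    HasDerivAt (fun x : ℝ => lossI x s a b) (∑' q, (ldl x a b q : ℂ) * lt x s a b q) x := by
  have hs := psd_of_reg h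
  have hd := summable_of_reg h
  have hα : 0 < x / 2 := by linarith only [hx]
  have hβ : (1 + x) / 2 < 1 := by linarith only [hx1]
  have hmem : x ∈ Ioo (x / 2) ((1 + x) / 2) := ⟨by linarith only [hx], by linarith only [hx1]⟩
  have hu : Summable fun q => ∑ j, (((a j : ℝ) + b j) / (2 * (x / 2)) * ‖s (a + q) (b + q)‖ +
      (1 - (1 + x) / 2)⁻¹ * dmj s a b j q) :=
    summable_sum fun j _ => ((summable_norm_shift hs hd a b).mul_left _).add
      ((summable_dmj h a b j).mul_left _)
  exact hasDerivAt_tsum_of_isPreconnected (g := fun q x => lt x s a b q)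
    (g' := fun q x => (ldl x a b q : ℂ) * lt x s a b q) (t := Ioo (x / 2) ((1 + x) / 2))
    hu isOpen_Ioo isPreconnected_Ioo
    (fun q y hy => hasDerivAt_lt (hα.trans hy.1) (hy.2.trans hβ) s a b q)
    (fun q y hy => norm_der_le hα hβ hy hs a b q) hmem (summable_lt hx.le hx1.le hs hd a b) hmem

theorem hasSum_mul_lt {x : ℝ} (hx : 0 < x) (hx1 : x < 1) {s : Ker n} {E : ℝ} (h : Reg s E)
    (a b : Conf n) (j : Fin n) :
    HasSum (fun q : Conf n => ((q j : ℝ) : ℂ) * lt x s a b q)
      (((1 - x) / x : ℝ) * (((Real.sqrt ((a j : ℝ) + 1) * Real.sqrt ((b j : ℝ) + 1) : ℝ) : ℂ) *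
        lossI x s (up a j) (up b j))) := by
  have hs := psd_of_reg h
  have hd := summable_of_reg h
  have hinj : Function.Injective (fun q : Conf n => up q j) := by
    intro a b hab
    have h : down (up a j) j = down (up b j) j := congrArg (fun z => down z j) hab
    rwa [gfx_down_up, gfx_down_up] at h
  rw [← hinj.hasSum_iff]
  · have h1 := (((summable_lt hx.le hx1.le hs hd (up a j) (up b j)).hasSum).mul_left
      (((Real.sqrt ((a j : ℝ) + 1) * Real.sqrt ((b j : ℝ) + 1) : ℝ) : ℂ))).mul_left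
        (((1 - x) / x : ℝ) : ℂ)
    refine h1.congr_fun fun q => ?_
    have a1 := bsc_up (x := x) a q j
    have a2 := bsc_up' (x := x) a q j
    have b1 := bsc_up (x := x) b q j
    have b2 := bsc_up' (x := x) b q j
    have hxx : Real.sqrt x * Real.sqrt x = x := Real.mul_self_sqrt hx.le
    have hyy : Real.sqrt (1 - x) * Real.sqrt (1 - x) = 1 - x :=
      Real.mul_self_sqrt (by linarith only [hx1])
    have hqq : Real.sqrt ((q j : ℝ) + 1) * Real.sqrt ((q j : ℝ) + 1) = (q j : ℝ) + 1 :=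
      Real.mul_self_sqrt (by positivity)
    have key : ((q j : ℝ) + 1) * (bsc x a (up q j) * bsc x b (up q j)) =
        (1 - x) / x * (Real.sqrt ((a j : ℝ) + 1) * Real.sqrt ((b j : ℝ) + 1)) *
          (bsc x (up a j) q * bsc x (up b j) q) := by
      have e1 : ((q j : ℝ) + 1) * (bsc x a (up q j) * bsc x b (up q j)) =
          (1 - x) * ((Real.sqrt ((a j : ℝ) + q j + 1) * bsc x a q) *
            (Real.sqrt ((b j : ℝ) + q j + 1) * bsc x b q)) := by
        linear_combination (-(bsc x a (up q j) * bsc x b (up q j))) * hqq +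
          (Real.sqrt ((q j : ℝ) + 1) * bsc x b (up q j)) * a2 +
          (Real.sqrt (1 - x) * (Real.sqrt ((a j : ℝ) + q j + 1) * bsc x a q)) * b2 +
          ((Real.sqrt ((a j : ℝ) + q j + 1) * bsc x a q) *
            (Real.sqrt ((b j : ℝ) + q j + 1) * bsc x b q)) * hyy
      have e2 : (Real.sqrt ((a j : ℝ) + 1) * Real.sqrt ((b j : ℝ) + 1)) *
          (bsc x (up a j) q * bsc x (up b j) q) =
          x * ((Real.sqrt ((a j : ℝ) + q j + 1) * bsc x a q) *
            (Real.sqrt ((b j : ℝ) + q j + 1) * bsc x b q)) := by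
        linear_combination (Real.sqrt ((b j : ℝ) + 1) * bsc x (up b j) q) * a1 +
          (Real.sqrt x * (Real.sqrt ((a j : ℝ) + q j + 1) * bsc x a q)) * b1 +
          ((Real.sqrt ((a j : ℝ) + q j + 1) * bsc x a q) *
            (Real.sqrt ((b j : ℝ) + q j + 1) * bsc x b q)) * hxx
      rw [e1, mul_assoc ((1 - x) / x), e2]
      field_simp
    simp only [Function.comp, gfx_up_apply_self]
    rw [lt, lt, up_add, up_add, add_up, add_up, ← mul_assoc, ← mul_assoc, ← mul_assoc,
      ← Complex.ofReal_mul, ← Complex.ofReal_mul, ← Complex.ofReal_mul]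
    congr 2
    rw [← key]
    push_cast
    ring
  · intro q hq
    have hq0 : q j = 0 := by
      by_contra h0
      exact hq ⟨down q j, gfx_up_down h0⟩
    rw [hq0]
    simp

/-- T2: the derivative of the loss channel -/
theorem hasDerivAt_lossI {x : ℝ} (hx : 0 < x) (hx1 : x < 1) {s : Ker n} {E : ℝ} (h : Reg s E)
    (a b : Conf n) :
    HasDerivAt (fun x : ℝ => lossI x s a b)
      (-((1 / x : ℝ) : ℂ) * ∑ j, genLj (lossI x s) j a b) x := by
  have hs := psd_of_reg h
  have hd := summable_of_reg h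
  refine (hasDerivAt_lossI_aux hx hx1 h a b).congr_deriv ?_
  have h1 : HasSum (fun q : Conf n => ∑ j, ((((a j : ℝ) + b j) / (2 * x) : ℝ) * lt x s a b q -
      (((1 - x)⁻¹ : ℝ) : ℂ) * (((q j : ℝ) : ℂ) * lt x s a b q)))
      (∑ j, ((((a j : ℝ) + b j) / (2 * x) : ℝ) * lossI x s a b - (((1 - x)⁻¹ : ℝ) : ℂ) *
        (((1 - x) / x : ℝ) * (((Real.sqrt ((a j : ℝ) + 1) * Real.sqrt ((b j : ℝ) + 1) : ℝ) : ℂ) *
          lossI x s (up a j) (up b j))))) :=
    hasSum_sum fun j _ => ((summable_lt hx.le hx1.le hs hd a b).hasSum.mul_left _).sub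
      ((hasSum_mul_lt hx hx1 h a b j).mul_left _)
  have h2 : HasSum (fun q : Conf n => (ldl x a b q : ℂ) * lt x s a b q) _ := h1.congr_fun fun q => by
    unfold ldl
    rw [Complex.ofReal_sum, Finset.sum_mul]
    refine Finset.sum_congr rfl fun j _ => ?_
    push_cast
    ring
  rw [h2.tsum_eq, Finset.mul_sum]
  refine Finset.sum_congr rfl fun j _ => ?_
  unfold genLj
  have hx' : (x : ℂ) ≠ 0 := Complex.ofReal_ne_zero.2 hx.ne'
  have hy' : (1 - (x : ℂ)) ≠ 0 := by
    rw [← Complex.ofReal_one, ← Complex.ofReal_sub]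
    exact Complex.ofReal_ne_zero.2 (by linarith only [hx1] : (1 : ℝ) - x > 0).ne'
  push_cast
  field_simp
  ring

end

end Vale.Agent.P369L
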