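import Vale.Agent.P369.H946.BsJ
import Vale.Agent.P369.H809.Defs

/-!
P369L (helper946): data processing and superadditivity of the quadratic forms of infinite matrices
under the loss channel.
-/

namespace Vale.Agent.P369L

open Matrix MeasureTheory Set Filter
open Vale.Agent.P369 (Conf up down)
open Vale.Agent.P369A
open Vale.Agent.P369F
open scoped Kronecker ComplexOrder Topology

noncomputable section

variable {n : ℕ}

/-- the kernel of `Z_r` -/
def zr (r : ℝ) (s : Ker n) (j : Fin n) : Ker n := fun m m' =>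
  ((r + 1 : ℝ) : ℂ) * (((Real.sqrt ((m j : ℝ) + 1) : ℝ) : ℂ) * s (up m j) m') -
    ((r : ℝ) : ℂ) * (((Real.sqrt (m' j : ℝ) : ℝ) : ℂ) * s m (down m' j))

theorem Zr_eq (r : ℝ) (s : Ker n) (X : ℕ) (j : Fin n) : Zr r s X j = cutR X (X + 1) (zr r s j) := by
  ext a b
  rw [Zr_apply]
  rfl

theorem sqrt_C_ne {x : ℝ} (hx : 0 < x) : ((Real.sqrt x : ℝ) : ℂ) ≠ 0 := by
  rw [Ne, Complex.ofReal_eq_zero]
  exact (Real.sqrt_pos.2 hx).ne'

/-- the loss channel on `Z_r` -/
theorem hasSum_lt_zr {x : ℝ} (hx : 0 < x) (hx1 : x ≤ 1) {s : Ker n}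
    (hs : ∀ a b, Summable (lt x s a b)) (r : ℝ) (j : Fin n) (p p' : Conf n) :
    HasSum (lt x (zr r s j) p p')
      (((Real.sqrt x : ℝ) : ℂ)⁻¹ * zr (x * r) (lossI x s) j p p') := by
  have hxs : Real.sqrt x ≠ 0 := (Real.sqrt_pos.2 hx).ne'
  have hxx : Real.sqrt x * Real.sqrt x = x := Real.mul_self_sqrt hx.le
  have hyy : Real.sqrt (1 - x) * Real.sqrt (1 - x) = 1 - x :=
    Real.mul_self_sqrt (by linarith only [hx1])
  -- the first term
  have b1 : ∀ q : Conf n, bsc x p q * Real.sqrt ((p j : ℝ) + q j + 1) =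
      (Real.sqrt x)⁻¹ * Real.sqrt ((p j : ℝ) + 1) * bsc x (up p j) q := by
    intro q
    have h := bsc_up (x := x) p q j
    have h2 : (Real.sqrt x)⁻¹ * (Real.sqrt ((p j : ℝ) + 1) * bsc x (up p j) q) =
        Real.sqrt ((p j : ℝ) + q j + 1) * bsc x p q := by
      rw [h, ← mul_assoc, inv_mul_cancel₀ hxs, one_mul]
    linarith only [h2]
  set A : Conf n → ℂ := fun q => (((Real.sqrt x)⁻¹ * Real.sqrt ((p j : ℝ) + 1) : ℝ) : ℂ) *
    lt x s (up p j) p' q with hA
  set S := lossI x s with hS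
  have hAs : HasSum A ((((Real.sqrt x)⁻¹ * Real.sqrt ((p j : ℝ) + 1) : ℝ) : ℂ) * S (up p j) p') :=
    (hs _ _).hasSum.mul_left _
  have hA1 : ∀ q, ((bsc x p q * bsc x p' q : ℝ) : ℂ) *
      (((Real.sqrt ((p j : ℝ) + q j + 1) : ℝ) : ℂ) * s (up (p + q) j) (p' + q)) = A q := by
    intro q
    have h := b1 q
    rw [hA]
    simp only
    rw [lt, up_add]
    have h' : ((bsc x p q * bsc x p' q : ℝ) : ℂ) * ((Real.sqrt ((p j : ℝ) + q j + 1) : ℝ) : ℂ) =
        (((Real.sqrt x)⁻¹ * Real.sqrt ((p j : ℝ) + 1) : ℝ) : ℂ) *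
          ((bsc x (up p j) q * bsc x p' q : ℝ) : ℂ) := by
      rw [← Complex.ofReal_mul, ← Complex.ofReal_mul]
      congr 1
      linear_combination (bsc x p' q) * h
    rw [← mul_assoc, h', mul_assoc]
  -- the second term
  set B : Conf n → ℂ := fun q => ((Real.sqrt x * Real.sqrt (p' j : ℝ) : ℝ) : ℂ) *
    lt x s p (down p' j) q with hB
  have hBs : HasSum B (((Real.sqrt x * Real.sqrt (p' j : ℝ) : ℝ) : ℂ) * S p (down p' j)) :=
    (hs _ _).hasSum.mul_left _
  set U : Conf n → ℂ := fun q => ((Real.sqrt (1 - x) * (Real.sqrt (q j : ℝ) * bsc x p q *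
    bsc x p' (down q j)) : ℝ) : ℂ) * s (p + q) (p' + down q j) with hU
  have hUs : HasSum U (((1 - x : ℝ) : ℂ) *
      ((((Real.sqrt x)⁻¹ * Real.sqrt ((p j : ℝ) + 1) : ℝ) : ℂ) * S (up p j) p')) := by
    have hinj : Function.Injective (fun q : Conf n => up q j) := by
      intro a b hab
      have h : down (up a j) j = down (up b j) j := congrArg (fun z => down z j) hab
      rwa [gfx_down_up, gfx_down_up] at h
    rw [← hinj.hasSum_iff]
    · refine (hAs.mul_left ((1 - x : ℝ) : ℂ)).congr_fun fun q => ?_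
      have h1 := bsc_up' (x := x) p q j
      have h2 := b1 q
      have h3 : Real.sqrt (1 - x) * (Real.sqrt (((up q j) j : ℕ) : ℝ) * bsc x p (up q j) *
          bsc x p' (down (up q j) j)) = (1 - x) * ((Real.sqrt x)⁻¹ * Real.sqrt ((p j : ℝ) + 1) *
            (bsc x (up p j) q * bsc x p' q)) := by
        rw [gfx_down_up, gfx_up_apply_self]
        push_cast
        rw [h1]
        linear_combination (Real.sqrt ((p j : ℝ) + q j + 1) * bsc x p q * bsc x p' q) * hyy +
          (1 - x) * bsc x p' q * h2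
      rw [hU, hA]
      simp only [Function.comp]
      rw [h3, gfx_down_up, lt, up_add, add_up]
      push_cast
      ring
    · intro q hq
      have hq0 : q j = 0 := by
        by_contra h0
        exact hq ⟨down q j, gfx_up_down h0⟩
      rw [hU]
      simp only
      rw [hq0]
      simp
  have hBU : ∀ q, ((bsc x p q * bsc x p' q : ℝ) : ℂ) *
      (((Real.sqrt ((p' j : ℝ) + q j) : ℝ) : ℂ) * s (p + q) (down (p' + q) j)) = B q + U q := by
    intro q
    have h := bsc_down (x := x) p' q j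
    have h' : ((bsc x p q * bsc x p' q : ℝ) : ℂ) * ((Real.sqrt ((p' j : ℝ) + q j) : ℝ) : ℂ) =
        ((Real.sqrt x * Real.sqrt (p' j : ℝ) : ℝ) : ℂ) *
          ((bsc x p q * bsc x (down p' j) q : ℝ) : ℂ) +
        ((Real.sqrt (1 - x) * (Real.sqrt (q j : ℝ) * bsc x p q * bsc x p' (down q j)) : ℝ) : ℂ) := by
      rw [← Complex.ofReal_mul, ← Complex.ofReal_mul, ← Complex.ofReal_add]
      congr 1
      linear_combination (bsc x p q) * h
    rw [← mul_assoc, h', add_mul, hB, hU]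
    simp only
    congr 1
    · rw [lt]
      by_cases h0 : p' j = 0
      · rw [h0]; simp
      · have e : down (p' + q) j = down p' j + q := by
          have e1 : p' + q = up (down p' j + q) j := by rw [← up_add, gfx_up_down h0]
          rw [e1, gfx_down_up]
        rw [e, mul_assoc]
    · by_cases h0 : q j = 0
      · rw [h0]; simp
      · have e : down (p' + q) j = p' + down q j := by
          have e1 : p' + q = up (p' + down q j) j := by rw [← add_up, gfx_up_down h0]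
          rw [e1, gfx_down_up]
        rw [e]
  have hfin := ((hAs.mul_left ((r + 1 : ℝ) : ℂ))).sub ((hBs.add hUs).mul_left ((r : ℝ) : ℂ))
  have e1 : ((r + 1 : ℝ) : ℂ) * ((((Real.sqrt x)⁻¹ * Real.sqrt ((p j : ℝ) + 1) : ℝ) : ℂ) *
        S (up p j) p') - ((r : ℝ) : ℂ) * (((Real.sqrt x * Real.sqrt (p' j : ℝ) : ℝ) : ℂ) *
        S p (down p' j) + ((1 - x : ℝ) : ℂ) *
      ((((Real.sqrt x)⁻¹ * Real.sqrt ((p j : ℝ) + 1) : ℝ) : ℂ) * S (up p j) p')) =
      ((Real.sqrt x : ℝ) : ℂ)⁻¹ * zr (x * r) S j p p' := by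
    have hxC := sqrt_C_ne hx
    have hxxC : ((Real.sqrt x : ℝ) : ℂ) * ((Real.sqrt x : ℝ) : ℂ) = (x : ℂ) := by
      rw [← Complex.ofReal_mul, hxx]
    unfold zr
    push_cast
    field_simp
    linear_combination (-(r : ℂ) * ((Real.sqrt (p' j : ℝ) : ℝ) : ℂ) * S p (down p' j)) * hxxC
  rw [e1] at hfin
  refine hfin.congr_fun fun q => ?_
  rw [lt, zr]
  have c1 : (((p + q) j : ℕ) : ℝ) + 1 = (p j : ℝ) + q j + 1 := by
    rw [Pi.add_apply]; push_cast; ring
  have c2 : (((p' + q) j : ℕ) : ℝ) = (p' j : ℝ) + q j := by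
    rw [Pi.add_apply]; push_cast; ring
  rw [c1, c2, ← hA1 q, ← hBU q]
  ring

end

end Vale.Agent.P369L
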