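import Vale.Agent.P369.H946.E3

/-!
P369L (helper946): traces of the test operators and their limits.
-/

namespace Vale.Agent.P369L

open Matrix MeasureTheory Set Filter
open Vale.Agent.P369 (Conf up down)
open Vale.Agent.P369A
open Vale.Agent.P369F
open scoped Kronecker ComplexOrder Topology

noncomputable section

variable {n : ℕ}

/-! ### extension by zero -/

theorem extR_zero_row {Γ X' X : ℕ} (V : Matrix (Ct n X') (Ct n X) ℂ) {x y : Ct n Γ}
    (h : ¬ ∑ j, x.1 j ≤ X') : extR Γ V x y = 0 := by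
  unfold extR
  rw [dif_neg fun hh => h hh.1]

theorem extR_zero_col {Γ X' X : ℕ} (V : Matrix (Ct n X') (Ct n X) ℂ) {x y : Ct n Γ}
    (h : ¬ ∑ j, y.1 j ≤ X) : extR Γ V x y = 0 := by
  unfold extR
  rw [dif_neg fun hh => h hh.2]

theorem tr_ext_col {Γ X' X : ℕ} (h' : X' ≤ Γ) (h : X ≤ Γ) (K : Ker n)
    {C : Matrix (Ct n Γ) (Ct n Γ) ℂ} (hC : ∀ a b, C a b = K a.1 b.1)
    (V : Matrix (Ct n X') (Ct n X) ℂ) :
    (C * ((extR Γ V)ᴴ * extR Γ V)).trace.re = (cutR X X K * (Vᴴ * V)).trace.re := by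
  have h2 := penS_extR 0 h' h C V
  unfold penS pen at h2
  have e : C.submatrix (inj h) (inj h) = cutR X X K := by
    ext a b
    exact hC _ _
  rw [e] at h2
  linarith only [h2]

theorem tr_ext_row {Γ X' X : ℕ} (h' : X' ≤ Γ) (h : X ≤ Γ) (K : Ker n)
    {C : Matrix (Ct n Γ) (Ct n Γ) ℂ} (hC : ∀ a b, C a b = K a.1 b.1)
    (V : Matrix (Ct n X') (Ct n X) ℂ) :
    (C * (extR Γ V * (extR Γ V)ᴴ)).trace.re = (cutR X' X' K * (V * Vᴴ)).trace.re := by
  have h2 := penS_extR 1 h' h C V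
  unfold penS pen at h2
  have e : C.submatrix (inj h') (inj h') = cutR X' X' K := by
    ext a b
    exact hC _ _
  rw [e] at h2
  linarith only [h2]

theorem tr_ext_lin {Γ X' X : ℕ} (h' : X' ≤ Γ) (h : X ≤ Γ) (K : Ker n)
    {C : Matrix (Ct n Γ) (Ct n Γ) ℂ} (hC : ∀ a b, C a b = K a.1 b.1)
    (V : Matrix (Ct n X') (Ct n X) ℂ) :
    (C * (extR Γ V)ᴴ).trace = (cutR X' X K * Vᴴ).trace := by
  have e : (inc n h')ᴴ * C * inc n h = cutR X' X K := by
    rw [inc_mul_inc]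
    ext a b
    exact hC _ _
  rw [extR_eq h' h, conjTranspose_mul, conjTranspose_mul, conjTranspose_conjTranspose]
  calc (C * (inc n h * (Vᴴ * (inc n h')ᴴ))).trace
      = ((C * inc n h * Vᴴ) * (inc n h')ᴴ).trace := by simp only [Matrix.mul_assoc]
    _ = ((inc n h')ᴴ * (C * inc n h * Vᴴ)).trace := trace_mul_comm _ _
    _ = (((inc n h')ᴴ * C * inc n h) * Vᴴ).trace := by simp only [Matrix.mul_assoc]
    _ = _ := by rw [e]

/-! ### limits of traces -/

theorem tendsto_trace_cutR {K : ℕ → Ker n} {K₀ : Ker n}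
    (h : ∀ a b, Tendsto (fun Y => K Y a b) atTop (𝓝 (K₀ a b))) {X' X : ℕ}
    (B : Matrix (Ct n X) (Ct n X') ℂ) :
    Tendsto (fun Y => (cutR X' X (K Y) * B).trace.re) atTop (𝓝 ((cutR X' X K₀ * B).trace.re)) := by
  apply (Complex.continuous_re.tendsto _).comp
  simp only [Matrix.trace, Matrix.diag_apply, Matrix.mul_apply]
  exact tendsto_finsetSum _ fun a _ => tendsto_finsetSum _ fun b _ => (h a.1 b.1).mul_const _

/-! ### the cross terms -/

theorem trace_cross_JF (x : ℝ) {X X' Γ Y Z : ℕ} (hY : X + X' + 2 ≤ Y) (hZ : X + X' + 2 ≤ Z)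
    (s : Ker n) (V : Matrix (Ct n X) (Ct n (X + 1)) ℂ) (W : Matrix (Ct n X') (Ct n (X' + 1)) ℂ) :
    (JF x Γ Z Z s * ((extR Γ V)ᴴ ⊗ₖ extR Γ W + extR Γ V ⊗ₖ (extR Γ W)ᴴ)).trace =
      (JF x Γ Y Y s * ((extR Γ V)ᴴ ⊗ₖ extR Γ W + extR Γ V ⊗ₖ (extR Γ W)ᴴ)).trace := by
  simp only [Matrix.trace, Matrix.diag_apply, Matrix.mul_apply (M := JF x Γ _ _ s)]
  refine Finset.sum_congr rfl fun i _ => Finset.sum_congr rfl fun k _ => ?_
  rw [Matrix.add_apply, kroneckerMap_apply, kroneckerMap_apply, conjTranspose_apply,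
    conjTranspose_apply]
  by_cases h1 : ∑ j, k.1.1 j ≤ X + 1
  swap
  · rw [extR_zero_col V h1, extR_zero_row V (x := k.1) fun h => h1 (h.trans (Nat.le_succ X)),
      star_zero, zero_mul, zero_mul, add_zero, mul_zero, mul_zero]
  by_cases h2 : ∑ j, i.1.1 j ≤ X + 1
  swap
  · rw [extR_zero_col V h2, extR_zero_row V (x := i.1) fun h => h2 (h.trans (Nat.le_succ X)),
      star_zero, zero_mul, zero_mul, add_zero, mul_zero, mul_zero]
  by_cases h3 : ∑ j, k.2.1 j ≤ X' + 1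
  swap
  · rw [extR_zero_col W h3, extR_zero_row W (x := k.2) fun h => h3 (h.trans (Nat.le_succ X')),
      star_zero, mul_zero, mul_zero, add_zero, mul_zero, mul_zero]
  by_cases h4 : ∑ j, i.2.1 j ≤ X' + 1
  swap
  · rw [extR_zero_col W h4, extR_zero_row W (x := i.2) fun h => h4 (h.trans (Nat.le_succ X')),
      star_zero, mul_zero, mul_zero, add_zero, mul_zero, mul_zero]
  congr 1
  rw [JF_apply, JF_apply]
  have e1 : ∑ j, (i.1.1 + i.2.1) j = ∑ j, i.1.1 j + ∑ j, i.2.1 j := sum_conf_add _ _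
  have e2 : ∑ j, (k.1.1 + k.2.1) j = ∑ j, k.1.1 j + ∑ j, k.2.1 j := sum_conf_add _ _
  rw [if_pos ⟨by omega, by omega⟩, if_pos ⟨by omega, by omega⟩]

/-! ### the linear functional -/

theorem lin_trace {ι κ γ : Type} [Fintype ι] [Fintype κ] [Fintype γ] (F : Matrix γ ι ℂ)
    (J : Matrix γ κ ℂ) (Z : Matrix ι κ ℂ) (A : Matrix γ γ ℂ) :
    (Zᴴ * (Fᴴ * A * J)).trace.re = ((F * Z * Jᴴ) * Aᴴ).trace.re := by
  have e : (Zᴴ * (Fᴴ * A * J)).trace = (((F * Z * Jᴴ) * Aᴴ)ᴴ).trace := by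
    rw [conjTranspose_mul, conjTranspose_mul, conjTranspose_mul, conjTranspose_conjTranspose,
      conjTranspose_conjTranspose]
    calc (Zᴴ * (Fᴴ * A * J)).trace = ((Zᴴ * Fᴴ * A) * J).trace := by simp only [Matrix.mul_assoc]
      _ = (J * (Zᴴ * Fᴴ * A)).trace := trace_mul_comm _ _
      _ = ((J * Zᴴ * Fᴴ) * A).trace := by simp only [Matrix.mul_assoc]
      _ = (A * (J * Zᴴ * Fᴴ)).trace := trace_mul_comm _ _
      _ = _ := by simp only [Matrix.mul_assoc]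
  rw [e, trace_conjTranspose]
  exact Complex.conj_re _

theorem re_trace_swap {ι κ : Type} [Fintype ι] [Fintype κ] (Z V : Matrix ι κ ℂ) :
    (Z * Vᴴ).trace.re = (Zᴴ * V).trace.re := by
  have e : (Z * Vᴴ).trace = ((Zᴴ * V)ᴴ).trace := by
    rw [conjTranspose_mul, conjTranspose_conjTranspose, trace_mul_comm]
  rw [e, trace_conjTranspose]
  exact Complex.conj_re _

end

end Vale.Agent.P369L
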