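import Vale.Agent.P369.H946.E3c

/-!
P369L (helper946): the loss channel on infinite matrices: summability, positivity, trace, energies.
-/

namespace Vale.Agent.P369L

open Matrix MeasureTheory Set Filter
open Vale.Agent.P369 (Conf up down)
open Vale.Agent.P369A
open Vale.Agent.P369F
open scoped Kronecker ComplexOrder Topology

noncomputable section

variable {n : ℕ}

/-! ### entries of positive matrices -/

theorem entry_sq {ι : Type} [Fintype ι] {A : Matrix ι ι ℂ} (hA : A.PosSemidef) (i j : ι) :
    ‖A i j‖ ^ 2 ≤ (A i i).re * (A j j).re := by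
  have h := (hA.submatrix ![i, j]).det_nonneg
  rw [Matrix.det_fin_two] at h
  simp only [Matrix.submatrix_apply, Matrix.cons_val_zero, Matrix.cons_val_one] at h
  have h1 : A j i = star (A i j) := (hA.isHermitian.apply j i).symm
  have h2 : (A i i).im = 0 := by
    have := hA.isHermitian.apply i i
    exact Complex.conj_eq_iff_im.1 this
  have h3 : (A j j).im = 0 := by
    have := hA.isHermitian.apply j j
    exact Complex.conj_eq_iff_im.1 this
  rw [h1] at h
  have h4 := (Complex.le_def.1 h).1
  have h5 : (A i j * star (A i j)).re = ‖A i j‖ ^ 2 := by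
    rw [Complex.star_def, Complex.mul_conj, Complex.ofReal_re, Complex.normSq_eq_norm_sq]
  rw [Complex.sub_re, Complex.mul_re, h2, h3, h5, Complex.zero_re] at h4
  linarith only [h4]

theorem ker_sq {s : Ker n} (hs : ∀ X, (cut X s).PosSemidef) (x y : Conf n) :
    ‖s x y‖ ^ 2 ≤ (s x x).re * (s y y).re := by
  have h := entry_sq (hs (∑ j, x j + ∑ j, y j)) ⟨x, Nat.le_add_right _ _⟩ ⟨y, Nat.le_add_left _ _⟩
  exact h

theorem ker_mul_le {s : Ker n} (hs : ∀ X, (cut X s).PosSemidef) (x y : Conf n) :
    ‖s x y‖ ≤ (s x x).re + (s y y).re := by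
  have h := ker_sq hs x y
  have h1 := diag_nonneg_of_cut hs x
  have h2 := diag_nonneg_of_cut hs y
  have h3 := norm_nonneg (s x y)
  nlinarith only [h, h1, h2, h3, mul_nonneg h1 h2]

/-! ### summability -/

theorem summable_diag {s : Ker n} (hs : ∀ X, (cut X s).PosSemidef) {B : ℝ}
    (ht : ∀ X, trX s X ≤ B) : Summable fun x : Conf n => (s x x).re :=
  summable_of_Ct (fun x => diag_nonneg_of_cut hs x) ht

theorem add_left_inj' (a : Conf n) : Function.Injective fun q : Conf n => a + q :=
  fun _ _ h => add_left_cancel h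

theorem summable_norm_shift {s : Ker n} (hs : ∀ X, (cut X s).PosSemidef)
    (hd : Summable fun x : Conf n => (s x x).re) (a b : Conf n) :
    Summable fun q : Conf n => ‖s (a + q) (b + q)‖ := by
  have h1 : Summable fun q : Conf n => (s (a + q) (a + q)).re := hd.comp_injective (add_left_inj' a)
  have h2 : Summable fun q : Conf n => (s (b + q) (b + q)).re := hd.comp_injective (add_left_inj' b)
  exact Summable.of_nonneg_of_le (fun _ => norm_nonneg _) (fun q => ker_mul_le hs _ _) (h1.add h2)

theorem bsc_mul_le {x : ℝ} (h0 : 0 ≤ x) (h1 : x ≤ 1) (a b q : Conf n) :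
    bsc x a q * bsc x b q ≤ 1 :=
  mul_le_one₀ (bsc_le_one h0 h1 a q) (bsc_nonneg _ _ _) (bsc_le_one h0 h1 b q)

theorem norm_lt_le {x : ℝ} (h0 : 0 ≤ x) (h1 : x ≤ 1) (s : Ker n) (a b q : Conf n) :
    ‖lt x s a b q‖ ≤ ‖s (a + q) (b + q)‖ := by
  rw [lt, norm_mul, Complex.norm_real, Real.norm_eq_abs,
    abs_of_nonneg (mul_nonneg (bsc_nonneg _ _ _) (bsc_nonneg _ _ _))]
  exact mul_le_of_le_one_left (norm_nonneg _) (bsc_mul_le h0 h1 a b q)

theorem summable_lt {x : ℝ} (h0 : 0 ≤ x) (h1 : x ≤ 1) {s : Ker n}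
    (hs : ∀ X, (cut X s).PosSemidef) (hd : Summable fun x : Conf n => (s x x).re) (a b : Conf n) :
    Summable (lt x s a b) :=
  Summable.of_norm_bounded (summable_norm_shift hs hd a b) (norm_lt_le h0 h1 s a b)

/-! ### hermitian -/

theorem herm_lossI {x : ℝ} {s : Ker n} (hs : Herm s) : Herm (lossI x s) := by
  intro a b
  unfold lossI
  rw [tsum_star]
  refine tsum_congr fun q => ?_
  rw [lt, lt, star_mul', hs]
  congr 1
  rw [mul_comm (bsc x a q)]
  exact Complex.conj_ofReal _

/-! ### positivity -/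

theorem bsc_zero_pos {x : ℝ} (hx : 0 < x) (a : Conf n) : 0 < bsc x a 0 := by
  unfold bsc b1
  refine Finset.prod_pos fun j _ => ?_
  have : 0 < Real.sqrt x := Real.sqrt_pos.2 hx
  simp only [Pi.zero_apply, add_zero, Nat.choose_zero_right, Nat.cast_one, Real.sqrt_one, one_mul,
    pow_zero, mul_one]
  positivity

theorem posDef_lossI {x : ℝ} (hx : 0 < x) (h1 : x ≤ 1) {s : Ker n} (hs : ∀ X, (cut X s).PosDef)
    (hd : Summable fun x : Conf n => (s x x).re) (X : ℕ) : (cut X (lossI x s)).PosDef := by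
  have hs' : ∀ X, (cut X s).PosSemidef := fun X => (hs X).posSemidef
  have hH : (cut X (lossI x s)).IsHermitian := by
    ext a b
    rw [conjTranspose_apply]
    exact herm_lossI (herm_of_cut hs') b.1 a.1
  refine Matrix.PosDef.of_dotProduct_mulVec_pos hH fun v hv => ?_
  -- the terms
  set G : Conf n → ℂ := fun q => ∑ a : Ct n X, ∑ b : Ct n X,
    star (v a) * (lt x s a.1 b.1 q * v b) with hG
  have hsum : HasSum G (star v ⬝ᵥ (cut X (lossI x s) *ᵥ v)) := by
    have e : star v ⬝ᵥ (cut X (lossI x s) *ᵥ v) = ∑ a : Ct n X, ∑ b : Ct n X,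
        star (v a) * (lossI x s a.1 b.1 * v b) := by
      simp only [dotProduct, mulVec, Finset.mul_sum, Pi.star_apply]
      rfl
    rw [e]
    exact hasSum_sum fun a _ => hasSum_sum fun b _ =>
      ((summable_lt hx.le h1 hs' hd a.1 b.1).hasSum.mul_right (v b)).mul_left (star (v a))
  have hterm : ∀ q : Conf n, 0 ≤ (G q).re ∧ (q = 0 → 0 < (G q).re) := by
    intro q
    set Y : ℕ := X + ∑ j, q j with hY
    let e : Ct n X → Ct n Y := fun a => ⟨a.1 + q, by
      rw [sum_conf_add]; exact Nat.add_le_add_right a.2 _⟩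
    have he : Function.Injective e := by
      intro a b hab
      have h : a.1 + q = b.1 + q := congrArg (fun z : Ct n Y => z.1) hab
      exact Subtype.ext (add_right_cancel h)
    have hM : ((cut Y s).submatrix e e).PosDef := (hs Y).submatrix he
    set w : Ct n X → ℂ := fun a => ((bsc x a.1 q : ℝ) : ℂ) * v a with hw
    have hGw : G q = star w ⬝ᵥ (((cut Y s).submatrix e e) *ᵥ w) := by
      rw [hG]
      simp only [dotProduct, mulVec, Finset.mul_sum, Pi.star_apply]
      refine Finset.sum_congr rfl fun a _ => Finset.sum_congr rfl fun b _ => ?_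
      have h2 : star (w a) = ((bsc x a.1 q : ℝ) : ℂ) * star (v a) := by
        rw [hw]
        simp only
        rw [star_mul', show star ((bsc x a.1 q : ℝ) : ℂ) = ((bsc x a.1 q : ℝ) : ℂ) from
          Complex.conj_ofReal _]
      rw [h2, lt]
      change _ = _ * (s (a.1 + q) (b.1 + q) * (((bsc x b.1 q : ℝ) : ℂ) * v b))
      push_cast
      ring
    constructor
    · rw [hGw]
      exact (Complex.le_def.1 (hM.posSemidef.dotProduct_mulVec_nonneg w)).1
    · intro hq
      rw [hGw]
      have hw0 : w ≠ 0 := by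
        intro h0
        apply hv
        funext a
        have h2 := congrFun h0 a
        rw [hw] at h2
        simp only [Pi.zero_apply, mul_eq_zero, Complex.ofReal_eq_zero] at h2
        rcases h2 with h2 | h2
        · rw [hq] at h2
          exact absurd h2 (bsc_zero_pos hx a.1).ne'
        · exact h2
      exact (Complex.lt_def.1 (hM.dotProduct_mulVec_pos hw0)).1
  have hre : HasSum (fun q => (G q).re) (star v ⬝ᵥ (cut X (lossI x s) *ᵥ v)).re :=
    Complex.hasSum_re hsum
  have h3 : 0 < (star v ⬝ᵥ (cut X (lossI x s) *ᵥ v)).re := by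
    refine lt_of_lt_of_le ((hterm 0).2 rfl) ?_
    exact le_hasSum hre 0 fun q _ => (hterm q).1
  have h4 : (star v ⬝ᵥ (cut X (lossI x s) *ᵥ v)).im = 0 := hH.im_star_dotProduct_mulVec_self v
  rw [Complex.lt_def]
  exact ⟨h3, h4.symm⟩

end

end Vale.Agent.P369L
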