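import Vale.Agent.P369.H946.Reg

/-!
P369L (helper946): the loss channel on infinite matrices: trace and energies.
-/

namespace Vale.Agent.P369L

open Matrix MeasureTheory Set Filter
open Vale.Agent.P369 (Conf up down)
open Vale.Agent.P369A
open Vale.Agent.P369F
open scoped Kronecker ComplexOrder Topology

noncomputable section

variable {n : ℕ}

/-- splitting of a configuration in two parts -/
def splitE : (Σ m : Conf n, {l : Conf n // l ∈ Finset.Iic m}) ≃ Conf n × Conf n where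
  toFun a := (a.1 - a.2.1, a.2.1)
  invFun p := ⟨p.1 + p.2, ⟨p.2, Finset.mem_Iic.2 le_add_self⟩⟩
  left_inv a := by
    obtain ⟨m, l, hl⟩ := a
    have h : m - l + l = m := tsub_add_cancel_of_le (Finset.mem_Iic.1 hl)
    exact Sigma.subtype_ext h rfl
  right_inv p := by
    obtain ⟨a, b⟩ := p
    simp only [add_tsub_cancel_right]

/-- nonnegative double sums -/
theorem hasSum_pair {F : Conf n × Conf n → ℝ} (h0 : ∀ p, 0 ≤ F p) {a : ℝ}
    (h : HasSum (fun m : Conf n => ∑ l ∈ Finset.Iic m, F (m - l, l)) a) : HasSum F a := by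
  have hsm : Summable F := by
    rw [← splitE.summable_iff, summable_sigma_of_nonneg (f := F ∘ splitE) fun a => h0 _]
    constructor
    · intro m
      exact (hasSum_fintype _).summable
    · refine h.summable.congr fun m => ?_
      rw [tsum_fintype, Finset.univ_eq_attach]
      exact (Finset.sum_attach (Finset.Iic m) fun l => F (m - l, l)).symm
  have h2 := hasSum_fiber hsm.hasSum
  have h3 := h2.unique h
  rw [← h3]
  exact hsm.hasSum

theorem hasSum_bsc_pair {x : ℝ} (h0 : 0 ≤ x) (h1 : x ≤ 1) {d : Conf n → ℝ} (hd : ∀ m, 0 ≤ d m)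
    {a : ℝ} (h : HasSum d a) :
    HasSum (fun p : Conf n × Conf n => bsc x p.1 p.2 ^ 2 * d (p.1 + p.2)) a := by
  refine hasSum_pair (fun p => mul_nonneg (sq_nonneg _) (hd _)) (h.congr_fun fun m => ?_)
  have e : ∑ l ∈ Finset.Iic m, bsc x (m - l) l ^ 2 * d (m - l + l) =
      ∑ l ∈ Finset.Iic m, bsc x (m - l) l ^ 2 * d m :=
    Finset.sum_congr rfl fun l hl => by rw [tsub_add_cancel_of_le (Finset.mem_Iic.1 hl)]
  rw [e, ← Finset.sum_mul, sum_bsc_sq h0 h1, one_mul]

/-- first moment, one mode -/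
theorem sum_mul_b1_sq {x : ℝ} (h0 : 0 ≤ x) (h1 : x ≤ 1) (m : ℕ) :
    ∑ c ∈ Finset.range (m + 1), ((m - c : ℕ) : ℝ) * b1 x (m - c) c ^ 2 = x * m := by
  cases m with
  | zero => simp
  | succ m =>
    rw [Finset.sum_range_succ, Nat.sub_self, Nat.cast_zero, zero_mul, add_zero]
    have e : ∀ c ∈ Finset.range (m + 1), ((m + 1 - c : ℕ) : ℝ) * b1 x (m + 1 - c) c ^ 2 =
        x * (m + 1 : ℕ) * b1 x (m - c) c ^ 2 := by
      intro c hc
      rw [Finset.mem_range] at hc
      have h2 : m + 1 - c = (m - c) + 1 := by omega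
      have h := b1_up (x := x) (m - c) c
      rw [h2]
      have h3 : ((m - c : ℕ) : ℝ) + c + 1 = ((m + 1 : ℕ) : ℝ) := by
        have : m - c + c + 1 = m + 1 := by omega
        exact_mod_cast this
      rw [h3] at h
      have h4 : (((m - c + 1 : ℕ)) : ℝ) = Real.sqrt (((m - c : ℕ) : ℝ) + 1) ^ 2 := by
        rw [Real.sq_sqrt (by positivity)]
        push_cast
        ring
      rw [h4, ← mul_pow, h, mul_pow, mul_pow, Real.sq_sqrt h0, Real.sq_sqrt (Nat.cast_nonneg _)]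
      ring
    rw [Finset.sum_congr rfl e, ← Finset.mul_sum, sum_b1_sq h0 h1, mul_one]

/-- first moment -/
theorem sum_mul_bsc_sq {x : ℝ} (h0 : 0 ≤ x) (h1 : x ≤ 1) (m : Conf n) (j : Fin n) :
    ∑ l ∈ Finset.Iic m, (((m - l) j : ℕ) : ℝ) * bsc x (m - l) l ^ 2 = x * m j := by
  have e : ∀ l : Conf n, (((m - l) j : ℕ) : ℝ) * bsc x (m - l) l ^ 2 =
      ∏ i, ((if i = j then ((m i - l i : ℕ) : ℝ) else 1) * b1 x (m i - l i) (l i) ^ 2) := by
    intro l
    unfold bsc
    rw [Finset.prod_mul_distrib, ← Finset.prod_pow]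
    congr 1
    rw [Finset.prod_ite_eq' Finset.univ j]
    simp only [Finset.mem_univ, if_true]
    rfl
  simp only [e]
  have e2 : (Finset.Iic m : Finset (Conf n)) = Fintype.piFinset fun j => Finset.Iic (m j) := by
    ext l
    simp only [Finset.mem_Iic, Fintype.mem_piFinset, Pi.le_def]
  have e3 : ∀ k : ℕ, Finset.Iic k = Finset.range (k + 1) := by
    intro k
    ext c
    simp only [Finset.mem_Iic, Finset.mem_range]
    omega
  rw [e2, ← Finset.prod_univ_sum (f := fun i c =>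
    (if i = j then ((m i - c : ℕ) : ℝ) else 1) * b1 x (m i - c) c ^ 2),
    ← Finset.mul_prod_erase Finset.univ _ (Finset.mem_univ j)]
  rw [Finset.prod_eq_one, mul_one]
  · simp only [if_true]
    rw [e3, sum_mul_b1_sq h0 h1]
  · intro i hi
    rw [Finset.mem_erase] at hi
    simp only [if_neg hi.1, one_mul]
    rw [e3, sum_b1_sq h0 h1]

theorem hasSum_bsc_pair_en {x : ℝ} (h0 : 0 ≤ x) (h1 : x ≤ 1) {d : Conf n → ℝ} (hd : ∀ m, 0 ≤ d m)
    (j : Fin n) {a : ℝ} (h : HasSum (fun m => (m j : ℝ) * d m) a) :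
    HasSum (fun p : Conf n × Conf n => (p.1 j : ℝ) * (bsc x p.1 p.2 ^ 2 * d (p.1 + p.2)))
      (x * a) := by
  refine hasSum_pair (fun p => mul_nonneg (Nat.cast_nonneg _) (mul_nonneg (sq_nonneg _) (hd _)))
    ((h.mul_left x).congr_fun fun m => ?_)
  have e : ∑ l ∈ Finset.Iic m, ((((m - l, l) : Conf n × Conf n).1 j : ℕ) : ℝ) *
      (bsc x (m - l) l ^ 2 * d (m - l + l)) =
      ∑ l ∈ Finset.Iic m, ((((m - l) j : ℕ) : ℝ) * bsc x (m - l) l ^ 2) * d m :=
    Finset.sum_congr rfl fun l hl => by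
      rw [tsub_add_cancel_of_le (Finset.mem_Iic.1 hl)]
      ring
  rw [e, ← Finset.sum_mul, sum_mul_bsc_sq h0 h1]
  ring

/-! ### diagonal of the loss channel -/

theorem lt_diag (x : ℝ) (s : Ker n) (p q : Conf n) :
    (lt x s p p q).re = bsc x p q ^ 2 * (s (p + q) (p + q)).re := by
  rw [lt, Complex.re_ofReal_mul, sq]

theorem hasSum_lossI_diag {x : ℝ} (h0 : 0 ≤ x) (h1 : x ≤ 1) {s : Ker n}
    (hs : ∀ X, (cut X s).PosSemidef) (hd : Summable fun x : Conf n => (s x x).re) (p : Conf n) :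
    HasSum (fun q => bsc x p q ^ 2 * (s (p + q) (p + q)).re) (lossI x s p p).re := by
  have h := Complex.hasSum_re (summable_lt h0 h1 hs hd p p).hasSum
  exact h.congr_fun fun q => (lt_diag x s p q).symm

theorem hasSum_tr_lossI {x : ℝ} (h0 : 0 ≤ x) (h1 : x ≤ 1) {s : Ker n}
    (hs : ∀ X, (cut X s).PosSemidef) {a : ℝ} (hd : HasSum (fun x : Conf n => (s x x).re) a) :
    HasSum (fun p : Conf n => (lossI x s p p).re) a :=
  (hasSum_bsc_pair h0 h1 (fun m => diag_nonneg_of_cut hs m) hd).prod_fiberwise fun p =>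
    hasSum_lossI_diag h0 h1 hs hd.summable p

theorem hasSum_en_lossI {x : ℝ} (h0 : 0 ≤ x) (h1 : x ≤ 1) {s : Ker n}
    (hs : ∀ X, (cut X s).PosSemidef) (hd : Summable (fun x : Conf n => (s x x).re)) (j : Fin n)
    {a : ℝ} (h : HasSum (fun m : Conf n => (m j : ℝ) * (s m m).re) a) :
    HasSum (fun p : Conf n => (p j : ℝ) * (lossI x s p p).re) (x * a) :=
  (hasSum_bsc_pair_en h0 h1 (fun m => diag_nonneg_of_cut hs m) j h).prod_fiberwise fun p =>
    (hasSum_lossI_diag h0 h1 hs hd p).mul_left _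

/-! ### consequences for faithful states -/

theorem psd_of_reg {s : Ker n} {E : ℝ} (h : Reg s E) : ∀ X, (cut X s).PosSemidef :=
  fun X => (h.pos X).posSemidef

theorem summable_of_reg {s : Ker n} {E : ℝ} (h : Reg s E) : Summable fun x : Conf n => (s x x).re :=
  summable_diag (psd_of_reg h) h.tr_le

theorem hasSum_of_reg {s : Ker n} {E : ℝ} (h : Reg s E) :
    HasSum (fun x : Conf n => (s x x).re) 1 := by
  have h1 := (summable_of_reg h).hasSum
  have h2 := tendsto_sum_Ct h1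
  have h3 : ∑' x : Conf n, (s x x).re = 1 := tendsto_nhds_unique h2 h.tr
  rwa [h3] at h1

theorem hasSum_en_of_reg {s : Ker n} {E : ℝ} (h : Reg s E) :
    HasSum (fun x : Conf n => (∑ j, (x j : ℝ)) * (s x x).re) E := by
  have h0 : ∀ x : Conf n, 0 ≤ (∑ j, (x j : ℝ)) * (s x x).re := fun x =>
    mul_nonneg (Finset.sum_nonneg fun _ _ => Nat.cast_nonneg _)
      (diag_nonneg_of_cut (psd_of_reg h) x)
  have h1 := (summable_of_Ct (g := fun x : Conf n => (∑ j, (x j : ℝ)) * (s x x).re) h0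
    (B := E) fun X => h.en_le X).hasSum
  have h2 := tendsto_sum_Ct h1
  have h3 : ∑' x : Conf n, (∑ j, (x j : ℝ)) * (s x x).re = E := tendsto_nhds_unique h2 h.en
  rwa [h3] at h1

theorem summable_enj_of_reg {s : Ker n} {E : ℝ} (h : Reg s E) (j : Fin n) :
    Summable (fun x : Conf n => (x j : ℝ) * (s x x).re) := by
  refine Summable.of_nonneg_of_le (fun x => mul_nonneg (Nat.cast_nonneg _)
    (diag_nonneg_of_cut (psd_of_reg h) x)) (fun x => ?_) (hasSum_en_of_reg h).summable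
  exact mul_le_mul_of_nonneg_right (Finset.single_le_sum (f := fun i => (x i : ℝ))
    (fun _ _ => Nat.cast_nonneg _) (Finset.mem_univ j)) (diag_nonneg_of_cut (psd_of_reg h) x)

/-- energy of mode `j` -/
def enj (s : Ker n) (j : Fin n) : ℝ := ∑' x : Conf n, (x j : ℝ) * (s x x).re

theorem tendsto_enXj_of_reg {s : Ker n} {E : ℝ} (h : Reg s E) (j : Fin n) :
    Tendsto (fun X => enXj s X j) atTop (𝓝 (enj s j)) :=
  tendsto_sum_Ct (summable_enj_of_reg h j).hasSum

theorem sum_enj {s : Ker n} {E : ℝ} (h : Reg s E) : ∑ j, enj s j = E := by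
  have h1 : HasSum (fun x : Conf n => ∑ j, (x j : ℝ) * (s x x).re) (∑ j, enj s j) :=
    hasSum_sum fun j _ => (summable_enj_of_reg h j).hasSum
  have h2 := h1.congr_fun fun x => Finset.sum_mul _ _ _
  exact h2.unique (hasSum_en_of_reg h)

theorem enj_lossI {x : ℝ} (h0 : 0 ≤ x) (h1 : x ≤ 1) {s : Ker n} {E : ℝ} (h : Reg s E)
    (j : Fin n) : enj (lossI x s) j = x * enj s j :=
  (hasSum_en_lossI h0 h1 (psd_of_reg h) (summable_of_reg h) j
    (summable_enj_of_reg h j).hasSum).tsum_eq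

/-- T1: the loss channel preserves faithful states of finite energy -/
theorem reg_lossI {x : ℝ} (hx : 0 < x) (h1 : x ≤ 1) {s : Ker n} {E : ℝ} (h : Reg s E) :
    Reg (lossI x s) (x * E) where
  pos := posDef_lossI hx h1 h.pos (summable_of_reg h)
  tr := tendsto_sum_Ct (hasSum_tr_lossI hx.le h1 (psd_of_reg h) (hasSum_of_reg h))
  en := by
    have h2 : HasSum (fun p : Conf n => ∑ j, (p j : ℝ) * (lossI x s p p).re)
        (∑ j, x * enj s j) :=
      hasSum_sum fun j _ => hasSum_en_lossI hx.le h1 (psd_of_reg h) (summable_of_reg h) j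
        (summable_enj_of_reg h j).hasSum
    rw [← Finset.mul_sum, sum_enj h] at h2
    exact tendsto_sum_Ct (h2.congr_fun fun p => Finset.sum_mul _ _ _)

theorem tendsto_enXj_lossI {x : ℝ} (hx : 0 < x) (h1 : x ≤ 1) {s : Ker n} {E : ℝ} (h : Reg s E)
    (j : Fin n) {e : ℝ} (he : Tendsto (fun X => enXj s X j) atTop (𝓝 e)) :
    Tendsto (fun X => enXj (lossI x s) X j) atTop (𝓝 (x * e)) := by
  have h2 : e = enj s j := tendsto_nhds_unique he (tendsto_enXj_of_reg h j)
  rw [h2, ← enj_lossI hx.le h1 h]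
  exact tendsto_enXj_of_reg (reg_lossI hx h1 h) j

/-- T6: superadditivity -/
theorem e3_reg {x y : ℝ} (hx : 0 < x) (hy : 0 < y) (hxy : x + y = 1) {s : Ker n} {E : ℝ}
    (h : Reg s E) {l : ℝ} (hl : l ∈ Icc (0 : ℝ) 1) (r : ℝ) (X X' : ℕ) (j : Fin n) {ε : ℝ}
    (hε : 0 < ε) :
    ∀ᶠ Y in atTop, IXj (x * l) (x * r) (lossI x s) X j + IXj (y * l) (y * r) (lossI y s) X' j ≤
      IXj l r s Y j + ε :=
  have hx1 : x ≤ 1 := by linarith only [hxy, hy]
  have hy1 : y ≤ 1 := by linarith only [hxy, hx]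
  e3_step hx hy hxy h.pos (summable_lt hx.le hx1 (psd_of_reg h) (summable_of_reg h))
    (summable_lt hy.le hy1 (psd_of_reg h) (summable_of_reg h))
    (posDef_lossI hx hx1 h.pos (summable_of_reg h))
    (posDef_lossI hy hy1 h.pos (summable_of_reg h)) hl r X X' j hε

/-- T5: data processing -/
theorem dp_reg {x : ℝ} (hx : 0 < x) (hx1 : x ≤ 1) {s : Ker n} {E : ℝ} (h : Reg s E) {l : ℝ}
    (hl : l ∈ Icc (0 : ℝ) 1) (r : ℝ) (X : ℕ) (j : Fin n) {ε : ℝ} (hε : 0 < ε) :
    ∀ᶠ Y in atTop, IXj l (x * r) (lossI x s) X j ≤ x * IXj l r s Y j + ε :=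
  dp_step hx hx1 h.pos (summable_lt hx.le hx1 (psd_of_reg h) (summable_of_reg h))
    (posDef_lossI hx hx1 h.pos (summable_of_reg h)) hl r X j hε

end

end Vale.Agent.P369L
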