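import Vale.Agent.P369.H946.Reg2

/-!
P369L (helper946): semigroup property of the loss channel on infinite matrices.
-/

namespace Vale.Agent.P369L

open Matrix MeasureTheory Set Filter
open Vale.Agent.P369 (Conf up down)
open Vale.Agent.P369A
open Vale.Agent.P369F
open scoped Kronecker ComplexOrder Topology

noncomputable section

variable {n : ℕ}

theorem b1_one (a c : ℕ) : b1 1 a c = if c = 0 then 1 else 0 := by
  unfold b1
  by_cases h : c = 0
  · subst h
    simp
  · simp [h]

theorem bsc_one (p l : Conf n) : bsc 1 p l = if l = 0 then 1 else 0 := by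
  unfold bsc
  by_cases h : l = 0
  · subst h
    rw [if_pos rfl]
    exact Finset.prod_eq_one fun j _ => by rw [b1_one]; simp
  · rw [if_neg h]
    have h2 : ∃ j, l j ≠ 0 := by
      by_contra h3
      push Not at h3
      exact h (funext h3)
    obtain ⟨j, hj⟩ := h2
    exact Finset.prod_eq_zero (Finset.mem_univ j) (by rw [b1_one, if_neg hj])

theorem lossI_one (s : Ker n) : lossI 1 s = s := by
  funext a b
  unfold lossI
  rw [tsum_eq_single 0]
  · rw [lt, bsc_one, bsc_one, if_pos rfl, mul_one, Complex.ofReal_one, one_mul, add_zero, add_zero]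
  · intro q hq
    rw [lt, bsc_one, if_neg hq, zero_mul, Complex.ofReal_zero, zero_mul]

/-- composition of two beam splitters, one mode -/
theorem b1_comp {x y : ℝ} (hx : 0 ≤ x) (hx1 : x ≤ 1) (hy : 0 ≤ y) (hy1 : y ≤ 1)
    (hxy : x * y < 1) (a q l : ℕ) :
    b1 x a q * b1 y (a + q) l = b1 (x * y) a (q + l) * b1 (y * (1 - x) / (1 - x * y)) q l := by
  have h0 : 0 < 1 - x * y := by linarith only [hxy]
  have h1 : (0 : ℝ) ≤ 1 - x := by linarith only [hx1]
  have h2 : (0 : ℝ) ≤ 1 - y := by linarith only [hy1]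
  have e1 : 1 - y * (1 - x) / (1 - x * y) = (1 - y) / (1 - x * y) := by
    rw [eq_div_iff h0.ne', sub_mul, div_mul_cancel₀ _ h0.ne']
    ring
  have c1 : (a + q).choose q * (a + q + l).choose l = (a + (q + l)).choose (q + l) *
      (q + l).choose l := by
    have h3 := Nat.choose_mul (n := a + (q + l)) (k := q + l) (s := l) (by omega)
    have e2 : a + (q + l) - l = a + q := by omega
    have e3 : q + l - l = q := by omega
    rw [e2, e3] at h3
    rw [h3, ← add_assoc]
    ring
  have c2 : Real.sqrt ((a + q).choose q : ℕ) * Real.sqrt ((a + q + l).choose l : ℕ) =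
      Real.sqrt ((a + (q + l)).choose (q + l) : ℕ) * Real.sqrt ((q + l).choose l : ℕ) := by
    rw [← Real.sqrt_mul (Nat.cast_nonneg _), ← Real.sqrt_mul (Nat.cast_nonneg _), ← Nat.cast_mul,
      ← Nat.cast_mul, c1]
  have s1 : Real.sqrt (x * y) = Real.sqrt x * Real.sqrt y := Real.sqrt_mul hx y
  have s2 : Real.sqrt (1 - x * y) * Real.sqrt (y * (1 - x) / (1 - x * y)) =
      Real.sqrt y * Real.sqrt (1 - x) := by
    rw [← Real.sqrt_mul h0.le, ← Real.sqrt_mul hy]
    congr 1
    field_simp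
  have s3 : Real.sqrt (1 - x * y) * Real.sqrt ((1 - y) / (1 - x * y)) = Real.sqrt (1 - y) := by
    rw [← Real.sqrt_mul h0.le]
    congr 1
    field_simp
  unfold b1
  rw [e1, s1]
  calc Real.sqrt ((a + q).choose q : ℕ) * Real.sqrt x ^ a * Real.sqrt (1 - x) ^ q *
        (Real.sqrt ((a + q + l).choose l : ℕ) * Real.sqrt y ^ (a + q) * Real.sqrt (1 - y) ^ l)
      = (Real.sqrt ((a + q).choose q : ℕ) * Real.sqrt ((a + q + l).choose l : ℕ)) *
        (Real.sqrt x * Real.sqrt y) ^ a * (Real.sqrt y * Real.sqrt (1 - x)) ^ q *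
          Real.sqrt (1 - y) ^ l := by ring
    _ = (Real.sqrt ((a + (q + l)).choose (q + l) : ℕ) * Real.sqrt ((q + l).choose l : ℕ)) *
        (Real.sqrt x * Real.sqrt y) ^ a *
        (Real.sqrt (1 - x * y) * Real.sqrt (y * (1 - x) / (1 - x * y))) ^ q *
        (Real.sqrt (1 - x * y) * Real.sqrt ((1 - y) / (1 - x * y))) ^ l := by rw [c2, s2, s3]
    _ = _ := by ring

theorem bsc_comp {x y : ℝ} (hx : 0 ≤ x) (hx1 : x ≤ 1) (hy : 0 ≤ y) (hy1 : y ≤ 1)
    (hxy : x * y < 1) (a q l : Conf n) :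
    bsc x a q * bsc y (a + q) l = bsc (x * y) a (q + l) * bsc (y * (1 - x) / (1 - x * y)) q l := by
  unfold bsc
  rw [← Finset.prod_mul_distrib, ← Finset.prod_mul_distrib]
  exact Finset.prod_congr rfl fun j _ => b1_comp hx hx1 hy hy1 hxy (a j) (q j) (l j)

/-- T3: semigroup property -/
theorem lossI_lossI {x y : ℝ} (hx : 0 ≤ x) (hx1 : x ≤ 1) (hy : 0 ≤ y) (hy1 : y ≤ 1) {s : Ker n}
    (hs : ∀ X, (cut X s).PosSemidef) (hd : Summable fun x : Conf n => (s x x).re) :
    lossI x (lossI y s) = lossI (x * y) s := by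
  have hxy1 : x * y ≤ 1 := mul_le_one₀ hx1 hy hy1
  rcases hxy1.lt_or_eq with hxy | hxy
  swap
  · have h1 : x = 1 := le_antisymm hx1 (by nlinarith)
    have h2 : y = 1 := by rw [h1, one_mul] at hxy; exact hxy
    rw [h1, h2, mul_one, lossI_one, lossI_one]
  have hxy0 : 0 ≤ x * y := mul_nonneg hx hy
  have h0 : 0 < 1 - x * y := by linarith only [hxy]
  set θ := y * (1 - x) / (1 - x * y) with hθ
  have hθ0 : 0 ≤ θ := div_nonneg (mul_nonneg hy (by linarith only [hx1])) h0.le
  have hθ1 : θ ≤ 1 := by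
    rw [hθ, div_le_one h0]
    nlinarith only [hy1]
  funext a b
  -- the double series
  set F : Conf n × Conf n → ℂ := fun p => ((bsc θ p.1 p.2 ^ 2 : ℝ) : ℂ) *
    lt (x * y) s a b (p.1 + p.2) with hF
  have hnorm : ∀ p, ‖F p‖ = bsc θ p.1 p.2 ^ 2 * ‖lt (x * y) s a b (p.1 + p.2)‖ := by
    intro p
    rw [hF]
    simp only
    rw [norm_mul, Complex.norm_real, Real.norm_eq_abs, abs_of_nonneg (sq_nonneg _)]
  have hlt : Summable fun q => ‖lt (x * y) s a b q‖ :=
    (summable_lt hxy0 hxy1 hs hd a b).norm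
  have hFs : Summable F := by
    apply Summable.of_norm
    refine Summable.congr ?_ fun p => (hnorm p).symm
    exact (hasSum_bsc_pair hθ0 hθ1 (fun m => norm_nonneg _) hlt.hasSum).summable
  -- sum by fibers of the first variable
  have h1 : HasSum (fun q => ((bsc x a q * bsc x b q : ℝ) : ℂ) * lossI y s (a + q) (b + q))
      (∑' p, F p) := by
    refine hFs.hasSum.prod_fiberwise fun q => ?_
    have h2 := ((summable_lt hy hy1 hs hd (a + q) (b + q)).hasSum).mul_left
      ((bsc x a q * bsc x b q : ℝ) : ℂ)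
    refine h2.congr_fun fun l => ?_
    rw [hF]
    simp only
    rw [lt, lt]
    have ea := bsc_comp hx hx1 hy hy1 hxy a q l
    have eb := bsc_comp hx hx1 hy hy1 hxy b q l
    have e : ((bsc θ q l ^ 2 : ℝ) : ℂ) *
        ((bsc (x * y) a (q + l) * bsc (x * y) b (q + l) : ℝ) : ℂ) =
        ((bsc x a q * bsc x b q : ℝ) : ℂ) *
          ((bsc y (a + q) l * bsc y (b + q) l : ℝ) : ℂ) := by
      rw [← Complex.ofReal_mul, ← Complex.ofReal_mul]
      congr 1
      calc bsc θ q l ^ 2 * (bsc (x * y) a (q + l) * bsc (x * y) b (q + l))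
          = (bsc (x * y) a (q + l) * bsc θ q l) * (bsc (x * y) b (q + l) * bsc θ q l) := by ring
        _ = (bsc x a q * bsc y (a + q) l) * (bsc x b q * bsc y (b + q) l) := by rw [ea, eb]
        _ = _ := by ring
    rw [← mul_assoc, e, mul_assoc, add_assoc, add_assoc]
  -- sum by total
  have h3 : HasSum (fun m => lt (x * y) s a b m) (∑' p, F p) := by
    have h4 := (splitE (n := n)).hasSum_iff.2 hFs.hasSum
    have h5 : HasSum (fun m : Conf n => ∑ l ∈ Finset.Iic m, F (m - l, l)) (∑' p, F p) := by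
      refine h4.sigma fun m => ?_
      have h6 := hasSum_fintype fun l : {l : Conf n // l ∈ Finset.Iic m} => F (m - l.1, l.1)
      rw [Finset.univ_eq_attach, Finset.sum_attach (Finset.Iic m) fun l => F (m - l, l)] at h6
      exact h6
    refine h5.congr_fun fun m => ?_
    have e : ∑ l ∈ Finset.Iic m, F (m - l, l) =
        ∑ l ∈ Finset.Iic m, ((bsc θ (m - l) l ^ 2 : ℝ) : ℂ) * lt (x * y) s a b m :=
      Finset.sum_congr rfl fun l hl => by
        rw [hF]
        simp only
        rw [tsub_add_cancel_of_le (Finset.mem_Iic.1 hl)]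
    rw [e, ← Finset.sum_mul, ← Complex.ofReal_sum, sum_bsc_sq hθ0 hθ1, Complex.ofReal_one, one_mul]
  exact h1.tsum_eq.trans h3.tsum_eq.symm

end

end Vale.Agent.P369L
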